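import Vale.Agent.P363.R.Sob.Basic

/-! Kohn-Sham side (block B8): definitions.  Everything is about real functions on `ℝ³`, with
weak gradients given as `Fin 3 → R3 → ℝ`. -/

namespace Vale.Agent.P363.R.KS

open MeasureTheory Filter Topology
open Vale.Agent.P363.Stmt (R3 MemV)
open Vale.Agent.P363.R.Sob
open scoped ContDiff ENNReal

noncomputable section

/-- the `k`-th coordinate direction. -/
abbrev dir (k : Fin 3) : R3 := EuclideanSpace.single k (1 : ℝ)

/-- `f` is a real `H¹(ℝ³)` function with weak gradient `(g 0, g 1, g 2)`. -/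
structure H1 (f : R3 → ℝ) (g : Fin 3 → R3 → ℝ) : Prop where
  mem : MemLp f 2 (volume : Measure R3)
  gmem : ∀ k, MemLp (g k) 2 (volume : Measure R3)
  wd : ∀ k, IsWD (volume : Measure R3) (dir k) f (g k)

/-- the bilinear form of `-½Δ + v - μ` at `f` (gradient `g`) and `h` (gradient `k`). -/
def qf (v : R3 → ℝ) (μ : ℝ) (f : R3 → ℝ) (g : Fin 3 → R3 → ℝ) (h : R3 → ℝ)
    (k : Fin 3 → R3 → ℝ) : ℝ :=
  (1 / 2) * (∫ x, ∑ i, g i x * k i x) + ∫ x, (v x - μ) * f x * h x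

/-- What block B6 gives about a Kohn-Sham system: `φ` is the first orbital (energy `μ - δ`),
`a` is a function of energy `μ` (HOMO level), `s = √n`; `μ` is the infimum of the form on the
orthogonal complement of `φ`. -/
structure KSData (v : R3 → ℝ) (μ δ : ℝ) (φ a s : R3 → ℝ) (gφ ga gs : Fin 3 → R3 → ℝ) : Prop where
  memV : MemV v
  hφ : H1 φ gφ
  ha : H1 a ga
  hs : H1 s gs
  δpos : 0 < δ
  φpos : ∀ᵐ x, 0 < φ x
  φle : ∀ᵐ x, φ x ≤ s x
  eqφ : ∀ h k, H1 h k → qf v μ φ gφ h k = -δ * ∫ x, φ x * h x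
  eqa : ∀ h k, H1 h k → qf v μ a ga h k = 0
  subs : ∀ h k, H1 h k → (∀ᵐ x, 0 ≤ h x) → qf v μ s gs h k ≤ 0
  pos : ∀ h k, H1 h k → ∫ x, φ x * h x = 0 → 0 ≤ qf v μ h k h k

/-- open radial shell. -/
def shell (r R : ℝ) : Set R3 := {x | r < ‖x‖ ∧ ‖x‖ < R}

end

end Vale.Agent.P363.R.KS
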