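import Vale.Agent.P363.R.KS.Sobolev

/-! Calculus of `H1` functions and of the form `qf`. -/

namespace Vale.Agent.P363.R.KS

open MeasureTheory Filter Topology
open Vale.Agent.P363.Stmt (R3 MemV)
open Vale.Agent.P363.R.Sob
open scoped ContDiff ENNReal NNReal

noncomputable section

variable {f h u : R3 → ℝ} {g k w : Fin 3 → R3 → ℝ} {v : R3 → ℝ} {μ : ℝ}

theorem test_bdd {ψ : R3 → ℝ} (hψ : Test ψ) : ∃ C, 0 ≤ C ∧ ∀ x, |ψ x| ≤ C := by
  obtain ⟨C, hC⟩ := hψ.hasCompactSupport.exists_bound_of_continuous hψ.continuous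
  exact ⟨max C 0, le_max_right _ _, fun x => (hC x).trans (le_max_left _ _)⟩

theorem H1.locInt (hf : H1 f g) : LocallyIntegrable f (volume : Measure R3) :=
  hf.mem.locallyIntegrable (by norm_num)

theorem H1.glocInt (hf : H1 f g) (i : Fin 3) : LocallyIntegrable (g i) (volume : Measure R3) :=
  (hf.gmem i).locallyIntegrable (by norm_num)

theorem H1.congr (hf : H1 f g) (e : f =ᵐ[volume] h) (e' : ∀ i, g i =ᵐ[volume] k i) : H1 h k :=
  ⟨hf.mem.ae_eq e, fun i => (hf.gmem i).ae_eq (e' i), fun i => (hf.wd i).congr e (e' i)⟩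

theorem H1.add (hf : H1 f g) (hh : H1 h k) :
    H1 (fun x => f x + h x) (fun i x => g i x + k i x) :=
  ⟨hf.mem.add hh.mem, fun i => (hf.gmem i).add (hh.gmem i), fun i =>
    (hf.wd i).add (hh.wd i) hf.locInt (hf.glocInt i) hh.locInt (hh.glocInt i)⟩

theorem H1.sub (hf : H1 f g) (hh : H1 h k) :
    H1 (fun x => f x - h x) (fun i x => g i x - k i x) :=
  ⟨hf.mem.sub hh.mem, fun i => (hf.gmem i).sub (hh.gmem i), fun i =>
    (hf.wd i).sub (hh.wd i) hf.locInt (hf.glocInt i) hh.locInt (hh.glocInt i)⟩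

theorem H1.const_mul (hf : H1 f g) (c : ℝ) : H1 (fun x => c * f x) (fun i x => c * g i x) :=
  ⟨hf.mem.const_mul c, fun i => (hf.gmem i).const_mul c, fun i => by
    simpa using (hf.wd i).const_smul c⟩

theorem H1.neg (hf : H1 f g) : H1 (fun x => -f x) (fun i x => -g i x) := by
  simpa using hf.const_mul (-1)

theorem memLp_bdd_mul {p : ℝ≥0∞} {b F : R3 → ℝ} (hF : MemLp F p (volume : Measure R3))
    (hb : AEStronglyMeasurable b (volume : Measure R3)) {C : ℝ} (hC : ∀ᵐ x, |b x| ≤ C) :
    MemLp (fun x => b x * F x) p (volume : Measure R3) := by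
  refine hF.of_le_mul (c := C) (hb.mul hF.1) ?_
  filter_upwards [hC] with x hx
  rw [norm_mul, Real.norm_eq_abs]
  gcongr

/-- product with a smooth function, bounded with bounded derivatives. -/
theorem H1.mul_smooth (hf : H1 f g) {ψ : R3 → ℝ} (hψ : ContDiff ℝ ∞ ψ) {C D : ℝ}
    (hC : ∀ x, |ψ x| ≤ C) (hD : ∀ x i, |fderiv ℝ ψ x (dir i)| ≤ D) :
    H1 (fun x => ψ x * f x) (fun i x => fderiv ℝ ψ x (dir i) * f x + ψ x * g i x) := by
  have hcd : ∀ i, AEStronglyMeasurable (fun x => fderiv ℝ ψ x (dir i)) (volume : Measure R3) :=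
    fun i => ((hψ.continuous_fderiv (by simp)).clm_apply continuous_const).aestronglyMeasurable
  have hcψ : AEStronglyMeasurable ψ (volume : Measure R3) := hψ.continuous.aestronglyMeasurable
  refine ⟨memLp_bdd_mul hf.mem hcψ (Eventually.of_forall hC), fun i => ?_, fun i => ?_⟩
  · exact (memLp_bdd_mul hf.mem (hcd i) (Eventually.of_forall fun x => hD x i)).add
      (memLp_bdd_mul (hf.gmem i) hcψ (Eventually.of_forall hC))
  · simpa using (hf.wd i).smooth_smul hψ hf.locInt (hf.glocInt i)

theorem H1.mul_test (hf : H1 f g) {ψ : R3 → ℝ} (hψ : Test ψ) :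
    H1 (fun x => ψ x * f x) (fun i x => fderiv ℝ ψ x (dir i) * f x + ψ x * g i x) := by
  obtain ⟨C, -, hC⟩ := test_bdd hψ
  choose D hD0 hD using fun i => test_bdd (hψ.fderiv (dir i))
  exact hf.mul_smooth hψ.contDiff hC (D := ∑ i, D i) fun x i =>
    (hD i x).trans (Finset.single_le_sum (f := D) (fun j _ => hD0 j) (Finset.mem_univ i))

theorem H1.pos_part (hf : H1 f g) :
    H1 (fun x => max (f x) 0) (fun i x => if 0 < f x then g i x else 0) := by
  have hm : ∀ i, MemLp (fun x => if 0 < f x then g i x else 0) 2 (volume : Measure R3) := by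
    intro i
    have h0 : NullMeasurableSet {x | 0 < f x} (volume : Measure R3) :=
      nullMeasurableSet_lt aemeasurable_const hf.mem.1.aemeasurable
    have h1 : AEStronglyMeasurable (fun x => if 0 < f x then g i x else 0)
        (volume : Measure R3) := by
      have := (hf.gmem i).1.indicator₀ h0
      exact this
    refine (hf.gmem i).of_le h1 (Eventually.of_forall fun x => ?_)
    split_ifs
    · exact le_rfl
    · simp
  refine ⟨?_, hm, fun i => (hf.wd i).pos_part hf.locInt (hf.glocInt i)⟩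
  have h1 : AEStronglyMeasurable (fun x => max (f x) 0) (volume : Measure R3) :=
    hf.mem.1.sup aestronglyMeasurable_const
  refine hf.mem.of_le h1 (Eventually.of_forall fun x => ?_)
  simp only [Real.norm_eq_abs]
  rcases le_total (f x) 0 with h | h
  · simp [max_eq_right h]
  · simp [max_eq_left h]

theorem H1.ae_zero (hf : H1 f g) (i : Fin 3) (c : ℝ) : ∀ᵐ x, f x = c → g i x = 0 :=
  (hf.wd i).ae_eq_zero_on_level hf.locInt (hf.glocInt i) c

/-- product of two `H1` functions, the second bounded, the first bounded where the second is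
nonzero. -/
theorem H1.mul_bdd (hf : H1 f g) (hh : H1 h k) {C C' : ℝ} (b : ∀ᵐ x, |h x| ≤ C)
    (b' : ∀ᵐ x, h x ≠ 0 → |f x| ≤ C') :
    H1 (fun x => f x * h x) (fun i x => g i x * h x + f x * k i x) := by
  have m1 : MemLp (fun x => f x * h x) 2 (volume : Measure R3) := by
    have := memLp_bdd_mul hf.mem hh.mem.1 b
    simpa [mul_comm] using this
  refine ⟨m1, fun i => ?_, fun i => ?_⟩
  · have m2 : MemLp (fun x => g i x * h x) 2 (volume : Measure R3) := by
      have := memLp_bdd_mul (hf.gmem i) hh.mem.1 b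
      simpa [mul_comm] using this
    refine m2.add ?_
    have m3 : MemLp (fun x => C' * k i x) 2 (volume : Measure R3) := (hh.gmem i).const_mul C'
    refine m3.of_le (hf.mem.1.mul (hh.gmem i).1) ?_
    filter_upwards [b', hh.ae_zero i 0] with x h1 h2
    simp only [norm_mul, Real.norm_eq_abs]
    by_cases hx : h x = 0
    · rw [h2 hx]; simp
    · exact mul_le_mul_of_nonneg_right ((h1 hx).trans (le_abs_self _)) (abs_nonneg _)
  · have := (IsWD.bilin (ContinuousLinearMap.mul ℝ ℝ) hf.mem (hf.gmem i) hh.mem (hh.gmem i)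
      (hf.wd i) (hh.wd i))
    simpa using this

theorem H1.integrable_dot (hf : H1 f g) (hh : H1 h k) :
    Integrable (fun x => ∑ i, g i x * k i x) (volume : Measure R3) :=
  integrable_finsetSum _ fun i _ => (hf.gmem i).integrable_mul (hh.gmem i)

theorem qf_comm : qf v μ f g h k = qf v μ h k f g := by
  unfold qf
  have e1 : ∀ x, ∑ i, g i x * k i x = ∑ i, k i x * g i x := fun x =>
    Finset.sum_congr rfl fun i _ => mul_comm _ _
  have e2 : ∀ x, (v x - μ) * f x * h x = (v x - μ) * h x * f x := fun x => by ring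
  simp only [e1, e2]

theorem qf_congr {f' h' : R3 → ℝ} {g' k' : Fin 3 → R3 → ℝ} (e1 : f =ᵐ[volume] f')
    (e2 : ∀ i, g i =ᵐ[volume] g' i) (e3 : h =ᵐ[volume] h') (e4 : ∀ i, k i =ᵐ[volume] k' i) :
    qf v μ f g h k = qf v μ f' g' h' k' := by
  unfold qf
  have i1 : ∫ x, ∑ i, g i x * k i x = ∫ x, ∑ i, g' i x * k' i x := by
    refine integral_congr_ae ?_
    filter_upwards [ae_all_iff.2 e2, ae_all_iff.2 e4] with x h1 h2
    exact Finset.sum_congr rfl fun i _ => by rw [h1, h2]
  have i2 : ∫ x, (v x - μ) * f x * h x = ∫ x, (v x - μ) * f' x * h' x := by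
    refine integral_congr_ae ?_
    filter_upwards [e1, e3] with x h1 h2
    rw [h1, h2]
  rw [i1, i2]

theorem qf_add_left (hv : MemV v) (hf : H1 f g) (hu : H1 u w) (hh : H1 h k) :
    qf v μ (fun x => f x + u x) (fun i x => g i x + w i x) h k =
      qf v μ f g h k + qf v μ u w h k := by
  unfold qf
  have e1 : ∀ x, ∑ i, (g i x + w i x) * k i x = ∑ i, g i x * k i x + ∑ i, w i x * k i x := by
    intro x; rw [← Finset.sum_add_distrib]; exact Finset.sum_congr rfl fun i _ => by ring
  have e2 : ∀ x, (v x - μ) * (f x + u x) * h x =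
      (v x - μ) * f x * h x + (v x - μ) * u x * h x := by intro x; ring
  simp only [e1, e2]
  rw [integral_add (hf.integrable_dot hh) (hu.integrable_dot hh),
    integral_add (memV_integrable_sub_mul hv μ hf hh) (memV_integrable_sub_mul hv μ hu hh)]
  ring

theorem qf_smul_left (c : ℝ) :
    qf v μ (fun x => c * f x) (fun i x => c * g i x) h k = c * qf v μ f g h k := by
  unfold qf
  have e1 : ∀ x, ∑ i, (c * g i x) * k i x = c * ∑ i, g i x * k i x := by
    intro x; rw [Finset.mul_sum]; exact Finset.sum_congr rfl fun i _ => by ring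
  have e2 : ∀ x, (v x - μ) * (c * f x) * h x = c * ((v x - μ) * f x * h x) := by intro x; ring
  simp only [e1, e2]
  rw [integral_const_mul, integral_const_mul]
  ring

theorem qf_sub_left (hv : MemV v) (hf : H1 f g) (hu : H1 u w) (hh : H1 h k) :
    qf v μ (fun x => f x - u x) (fun i x => g i x - w i x) h k =
      qf v μ f g h k - qf v μ u w h k := by
  have h1 := qf_add_left (μ := μ) hv hf (hu.const_mul (-1)) hh
  rw [qf_smul_left] at h1
  simp only [neg_one_mul, ← sub_eq_add_neg] at h1
  exact h1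

theorem qf_add_right (hv : MemV v) (hf : H1 f g) (hu : H1 u w) (hh : H1 h k) :
    qf v μ h k (fun x => f x + u x) (fun i x => g i x + w i x) =
      qf v μ h k f g + qf v μ h k u w := by
  rw [qf_comm, qf_add_left hv hf hu hh, qf_comm, qf_comm (f := u)]

theorem qf_smul_right (c : ℝ) :
    qf v μ h k (fun x => c * f x) (fun i x => c * g i x) = c * qf v μ h k f g := by
  rw [qf_comm, qf_smul_left, qf_comm]

theorem qf_sub_right (hv : MemV v) (hf : H1 f g) (hu : H1 u w) (hh : H1 h k) :
    qf v μ h k (fun x => f x - u x) (fun i x => g i x - w i x) =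
      qf v μ h k f g - qf v μ h k u w := by
  rw [qf_comm, qf_sub_left hv hf hu hh, qf_comm, qf_comm (f := u)]

/-- `qf` vanishes on functions with disjoint supports. -/
theorem qf_eq_zero_of_disjoint (hf : H1 f g) (hh : H1 h k)
    (hd : ∀ᵐ x, f x = 0 ∨ h x = 0) : qf v μ f g h k = 0 := by
  unfold qf
  have e1 : ∫ x, ∑ i, g i x * k i x = 0 := by
    refine integral_eq_zero_of_ae ?_
    filter_upwards [hd, ae_all_iff.2 fun i => hf.ae_zero i 0, ae_all_iff.2 fun i => hh.ae_zero i 0]
      with x h1 h2 h3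
    refine Finset.sum_eq_zero fun i _ => ?_
    rcases h1 with h1 | h1
    · rw [h2 i h1, zero_mul]
    · rw [h3 i h1, mul_zero]
  have e2 : ∫ x, (v x - μ) * f x * h x = 0 := by
    refine integral_eq_zero_of_ae ?_
    filter_upwards [hd] with x h1
    rcases h1 with h1 | h1 <;> simp [h1]
  rw [e1, e2]; ring

end

end Vale.Agent.P363.R.KS
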