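import Vale.Agent.P363.R.KS.Quot

/-! K1 (positivity outside a ball), K3, and the final lower bound `ks_lower`. -/

namespace Vale.Agent.P363.R.KS

open MeasureTheory Filter Topology
open Vale.Agent.P363.Stmt (R3 MemV)
open Vale.Agent.P363.R.Sob
open scoped ContDiff ENNReal NNReal

noncomputable section

variable {v : R3 → ℝ} {μ δ : ℝ} {φ a s : R3 → ℝ} {gφ ga gs : Fin 3 → R3 → ℝ}

/-- IMS-type identity: `q(χφ,χφ) = ½∫|∇χ|²φ² - δ∫χ²φ²`. -/
theorem qf_cut (hφ : H1 φ gφ) (hv : MemV v)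
    (eqφ : ∀ h k, H1 h k → qf v μ φ gφ h k = -δ * ∫ x, φ x * h x) {χ : R3 → ℝ} (hχ : Test χ) :
    qf v μ (fun x => χ x * φ x) (fun i x => fderiv ℝ χ x (dir i) * φ x + χ x * gφ i x)
      (fun x => χ x * φ x) (fun i x => fderiv ℝ χ x (dir i) * φ x + χ x * gφ i x) =
    (1 / 2) * (∫ x, (∑ i, (fderiv ℝ χ x (dir i)) ^ 2) * φ x ^ 2) -
      δ * ∫ x, χ x ^ 2 * φ x ^ 2 := by
  have hχ2 : Test (fun x => χ x ^ 2) := by
    have := hχ.mul hχ.contDiff
    simpa only [sq] using this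
  have hfd : ∀ x (i : Fin 3), fderiv ℝ (fun x => χ x ^ 2) x (dir i) =
      2 * χ x * fderiv ℝ χ x (dir i) := by
    intro x i
    have h1 : HasFDerivAt χ (fderiv ℝ χ x) x := (hχ.differentiable x).hasFDerivAt
    have h2 := h1.pow 2
    rw [h2.fderiv]
    simp
  have hG := hφ.mul_test hχ
  have hh := hφ.mul_test hχ2
  have key := eqφ _ _ hh
  have hint1 : Integrable (fun x => (∑ i, (fderiv ℝ χ x (dir i)) ^ 2) * φ x ^ 2)
      (volume : Measure R3) := by
    have h1 : Integrable (fun x => ∑ i, (fderiv ℝ χ x (dir i) * φ x) ^ 2)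
        (volume : Measure R3) := by
      refine integrable_finsetSum _ fun i _ => ?_
      exact (hφ.mul_test (hχ.fderiv (dir i))).mem.integrable_sq
    refine h1.congr (Eventually.of_forall fun x => ?_)
    simp only [Finset.sum_mul, mul_pow]
  unfold qf at key ⊢
  have e1 : ∀ x, ∑ i, (fderiv ℝ χ x (dir i) * φ x + χ x * gφ i x) *
      (fderiv ℝ χ x (dir i) * φ x + χ x * gφ i x) =
      ∑ i, gφ i x * (fderiv ℝ (fun x => χ x ^ 2) x (dir i) * φ x + χ x ^ 2 * gφ i x) +
      (∑ i, (fderiv ℝ χ x (dir i)) ^ 2) * φ x ^ 2 := by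
    intro x
    rw [Finset.sum_mul, ← Finset.sum_add_distrib]
    refine Finset.sum_congr rfl fun i _ => ?_
    rw [hfd]; ring
  have e2 : ∀ x, (v x - μ) * (χ x * φ x) * (χ x * φ x) = (v x - μ) * φ x * (χ x ^ 2 * φ x) :=
    fun x => by ring
  have e3 : ∀ x, φ x * (χ x ^ 2 * φ x) = χ x ^ 2 * φ x ^ 2 := fun x => by ring
  simp only [e3] at key
  simp only [e1, e2]
  rw [integral_add (hφ.integrable_dot hh) hint1]
  linarith

/-- K1: the form is strictly positive on nonnegative functions supported outside the support of a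
cutoff `χ` with `½∫|∇χ|²φ² < δ∫χ²φ²`. -/
theorem pos_outside (hv : MemV v) (hφ : H1 φ gφ) (φpos : ∀ᵐ x, 0 < φ x)
    (eqφ : ∀ h k, H1 h k → qf v μ φ gφ h k = -δ * ∫ x, φ x * h x)
    (pos : ∀ h k, H1 h k → ∫ x, φ x * h x = 0 → 0 ≤ qf v μ h k h k)
    {χ : R3 → ℝ} (hχ : Test χ)
    (hneg : (1 / 2) * (∫ x, (∑ i, (fderiv ℝ χ x (dir i)) ^ 2) * φ x ^ 2) <
        δ * ∫ x, χ x ^ 2 * φ x ^ 2)
    {f : R3 → ℝ} {g : Fin 3 → R3 → ℝ} (hf : H1 f g) (hf0 : ∀ᵐ x, 0 ≤ f x)
    (hd : ∀ᵐ x, f x = 0 ∨ χ x = 0) (hq : qf v μ f g f g ≤ 0) : ∀ᵐ x, f x = 0 := by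
  have hG := hφ.mul_test hχ
  have hGneg : qf v μ (fun x => χ x * φ x) (fun i x => fderiv ℝ χ x (dir i) * φ x + χ x * gφ i x)
      (fun x => χ x * φ x) (fun i x => fderiv ℝ χ x (dir i) * φ x + χ x * gφ i x) < 0 := by
    rw [qf_cut hφ hv eqφ hχ]; linarith
  set G : R3 → ℝ := fun x => χ x * φ x with hGdef
  set gG : Fin 3 → R3 → ℝ := fun i x => fderiv ℝ χ x (dir i) * φ x + χ x * gφ i x
  have hGφ : ∫ x, φ x * G x ≠ 0 := fun h0 => absurd (pos _ _ hG h0) (not_le.2 hGneg)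
  set c : ℝ := (∫ x, φ x * f x) / ∫ x, φ x * G x with hc
  have hh := hf.sub (hG.const_mul c)
  have hφG : Integrable (fun x => φ x * G x) (volume : Measure R3) := hφ.mem.integrable_mul hG.mem
  have hφf : Integrable (fun x => φ x * f x) (volume : Measure R3) := hφ.mem.integrable_mul hf.mem
  have horth : ∫ x, φ x * (f x - c * G x) = 0 := by
    have e1 : ∀ x, φ x * (f x - c * G x) = φ x * f x - c * (φ x * G x) := fun x => by ring
    simp only [e1]
    rw [integral_sub hφf (hφG.const_mul c), integral_const_mul, hc]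
    field_simp
    ring
  have h1 := pos _ _ hh horth
  have hfG : qf v μ f g G gG = 0 := qf_eq_zero_of_disjoint hf hG (by
    filter_upwards [hd] with x hx
    rcases hx with h | h
    · exact Or.inl h
    · right; simp [hGdef, h])
  have hGf : qf v μ G gG f g = 0 := by rw [qf_comm]; exact hfG
  rw [qf_sub_left hv hf (hG.const_mul c) hh, qf_sub_right hv hf (hG.const_mul c) hf,
    qf_sub_right hv hf (hG.const_mul c) (hG.const_mul c), qf_smul_left, qf_smul_right,
    qf_smul_left, qf_smul_right, hfG, hGf] at h1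
  have hc0 : c = 0 := by
    by_contra hne
    have : 0 < c ^ 2 := by positivity
    nlinarith
  have h2 : ∫ x, φ x * f x = 0 := by
    rw [hc, div_eq_zero_iff] at hc0
    exact hc0.resolve_right hGφ
  have h3 : (fun x => φ x * f x) =ᵐ[volume] 0 := by
    refine (integral_eq_zero_iff_of_nonneg_ae ?_ hφf).1 h2
    filter_upwards [hf0, φpos] with x h4 h5
    exact mul_nonneg h5.le h4
  filter_upwards [h3, φpos] with x h4 h5
  have h6 : φ x * f x = 0 := h4
  rcases mul_eq_zero.1 h6 with h | h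
  · exact absurd h h5.ne'
  · exact h

/-- K3: extension of `c s ≤ a` from a shell to the whole exterior. -/
theorem extend_exterior (D : KSData v μ δ φ a s gφ ga gs) {r c ρa ρb : ℝ} (hc : 0 ≤ c)
    (hra : r ≤ ρa) (ha0 : 0 ≤ ρa) (hab : ρa < ρb) {χ : R3 → ℝ} (hχ : Test χ) (hχr : ∀ x, r < ‖x‖ → χ x = 0)
    (hneg : (1 / 2) * (∫ x, (∑ i, (fderiv ℝ χ x (dir i)) ^ 2) * φ x ^ 2) <
        δ * ∫ x, χ x ^ 2 * φ x ^ 2)
    (hsh : ∀ᵐ x, ρa ≤ ‖x‖ → ‖x‖ ≤ ρb → c * s x ≤ a x) :
    ∀ᵐ x, ρa ≤ ‖x‖ → c * s x ≤ a x := by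
  have hlt : ρa ^ 2 < ρb ^ 2 := pow_lt_pow_left₀ hab ha0 (by norm_num)
  have hneg1 : (-2 : ℝ) < -1 := by norm_num
  set θ : R3 → ℝ := cutR (-2) (-1) (ρa ^ 2) (ρb ^ 2) with hθdef
  have hθ : Test θ := cutR_test hlt
  have hθ1 : ∀ x, ‖x‖ ≤ ρa → θ x = 1 := fun x hx =>
    cutR_eq_one hneg1 hlt (by have := sq_nonneg ‖x‖; linarith) (pow_le_pow_left₀ (norm_nonneg _) hx 2)
  have hθ1' : ∀ x, ‖x‖ < ρa → fderiv ℝ θ x = 0 := fun x hx => by
    have : θ =ᶠ[𝓝 x] fun _ => 1 := by
      filter_upwards [(isOpen_lt continuous_norm continuous_const).mem_nhds hx] with y hy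
      exact hθ1 y (le_of_lt hy)
    rw [this.fderiv_eq]
    simp
  have hθ0 : ∀ x, ρb ≤ ‖x‖ → θ x = 0 := fun x hx =>
    cutR_eq_zero_right hlt (pow_le_pow_left₀ (ha0.trans hab.le) hx 2)
  have hθ0' : ∀ x, ρb ≤ ‖x‖ → fderiv ℝ θ x = 0 := fun x hx =>
    fderiv_eq_zero_of_nonneg (cutR_nonneg _ _ _ _) (hθ0 x hx)
  -- `w = (c s - a)⁺`
  have hcs := (D.hs.const_mul c).sub D.ha
  have hw := hcs.pos_part
  have hf := hw.sub (hw.mul_test hθ)
  set w : R3 → ℝ := fun x => max (c * s x - a x) 0 with hwdef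
  set gw : Fin 3 → R3 → ℝ := fun i x => if 0 < c * s x - a x then c * gs i x - ga i x else 0
    with hgwdef
  set f : R3 → ℝ := fun x => w x - θ x * w x with hfdef
  set g : Fin 3 → R3 → ℝ := fun i x => gw i x - (fderiv ℝ θ x (dir i) * w x + θ x * gw i x)
    with hgdef
  -- a.e. alternative
  have hann : ∀ᵐ x : R3, ‖x‖ ≠ ρa := by
    have h1 : (volume : Measure R3) (Metric.sphere (0 : R3) ρa) = 0 :=
      Measure.addHaar_sphere _ _ _
    have h2 : ∀ᵐ x : R3, x ∉ Metric.sphere (0 : R3) ρa := measure_eq_zero_iff_ae_notMem.1 h1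
    filter_upwards [h2] with x hx
    simpa using hx
  have halt : ∀ᵐ x, (f x = 0 ∧ (∀ i, g i x = 0) ∧ (ρb < ‖x‖ → w x = 0)) ∨
      (f x = w x ∧ (∀ i, g i x = gw i x) ∧ ρb < ‖x‖) := by
    filter_upwards [hsh, hann] with x h1 h2
    rcases lt_or_gt_of_ne h2 with h | h
    · left
      refine ⟨?_, fun i => ?_, fun h3 => absurd h3 (not_lt.2 (h.le.trans hab.le))⟩
      · simp only [hfdef, hθ1 x h.le]; ring
      · simp only [hgdef, hθ1 x h.le, hθ1' x h, zero_apply]; ring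
    · rcases le_or_gt ‖x‖ ρb with h3 | h3
      · left
        have h4 := h1 h.le h3
        have h5 : w x = 0 := by simp only [hwdef]; exact max_eq_right (by linarith)
        have h6 : ∀ i, gw i x = 0 := fun i => by
          simp only [hgwdef]; exact if_neg (by linarith)
        refine ⟨by simp only [hfdef, h5]; ring, fun i => by simp only [hgdef, h5, h6]; ring,
          fun _ => h5⟩
      · right
        refine ⟨by simp only [hfdef, hθ0 x h3.le]; ring, fun i => ?_, h3⟩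
        simp only [hgdef, hθ0 x h3.le, hθ0' x h3.le, zero_apply]; ring
  have hf0 : ∀ᵐ x, 0 ≤ f x := by
    filter_upwards [halt] with x hx
    rcases hx with h | h
    · rw [h.1]
    · rw [h.1]; exact le_max_right _ _
  have hfχ : ∀ᵐ x, f x = 0 ∨ χ x = 0 := by
    filter_upwards [halt] with x hx
    rcases hx with h | h
    · exact Or.inl h.1
    · exact Or.inr (hχr x (hra.trans_lt (hab.trans h.2.2)))
  -- the form at `f`
  have hqle : qf v μ f g f g ≤ 0 := by
    have e1 : qf v μ f g f g = qf v μ (fun x => c * s x - a x) (fun i x => c * gs i x - ga i x) f g := by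
      unfold qf
      have i1 : ∫ x, ∑ i, g i x * g i x = ∫ x, ∑ i, (c * gs i x - ga i x) * g i x := by
        refine integral_congr_ae ?_
        filter_upwards [halt] with x hx
        refine Finset.sum_congr rfl fun i _ => ?_
        rcases hx with h | h
        · rw [h.2.1 i]; ring
        · rw [h.2.1 i]
          simp only [hgwdef]
          split_ifs with h5
          · ring
          · ring
      have i2 : ∫ x, (v x - μ) * f x * f x = ∫ x, (v x - μ) * (c * s x - a x) * f x := by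
        refine integral_congr_ae ?_
        filter_upwards [halt] with x hx
        rcases hx with h | h
        · rw [h.1]; ring
        · rw [h.1]
          simp only [hwdef]
          rcases le_total (c * s x - a x) 0 with h5 | h5
          · rw [max_eq_right h5]; ring
          · rw [max_eq_left h5]
      rw [i1, i2]
    rw [e1, qf_sub_left D.memV (D.hs.const_mul c) D.ha hf, qf_smul_left, D.eqa _ _ hf]
    have := D.subs _ _ hf hf0
    nlinarith
  have hzero := pos_outside D.memV D.hφ D.φpos D.eqφ D.pos hχ hneg hf hf0 hfχ hqle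
  filter_upwards [hzero, halt, hsh] with x h1 h2 h3 h4
  rcases le_or_gt ‖x‖ ρb with h5 | h5
  · exact h3 h4 h5
  · have h6 : w x = 0 := by
      rcases h2 with h | h
      · exact h.2.2 h5
      · rw [← h.1]; exact h1
    have h7 := le_max_left (c * s x - a x) 0
    have h8 : max (c * s x - a x) 0 = 0 := h6
    rw [h8] at h7
    linarith

theorem H1.integrable_of_bdd_support {η : R3 → ℝ} {gη : Fin 3 → R3 → ℝ} (hη : H1 η gη)
    {S : Set R3} (hS : MeasurableSet S) (hSf : (volume : Measure R3) S ≠ ⊤)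
    (h0 : ∀ᵐ x, x ∉ S → η x = 0) : Integrable η (volume : Measure R3) := by
  have : IsFiniteMeasure ((volume : Measure R3).restrict S) := ⟨by simpa using hSf.lt_top⟩
  have h1 : IntegrableOn η S (volume : Measure R3) := (hη.mem.restrict S).integrable (by norm_num)
  have h2 := (integrable_indicator_iff hS).2 h1
  refine h2.congr ?_
  filter_upwards [h0] with x hx
  by_cases hxs : x ∈ S
  · rw [Set.indicator_of_mem hxs]
  · rw [Set.indicator_of_notMem hxs, hx hxs]

theorem small_of_close {S : Set R3} (hS : MeasurableSet S) {F g : R3 → ℝ}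
    (hFm : AEStronglyMeasurable F (volume : Measure R3)) (hF0 : ∀ x, 0 ≤ F x) {t ε : ℝ}
    (ht : 0 ≤ t) (hε : 0 ≤ ε) (hle : ∀ᵐ x, x ∈ S → F x ≤ t * g x ^ 2)
    (hg : ∫⁻ x in S, ENNReal.ofReal (g x ^ 2) ≤ ENNReal.ofReal ε) :
    ∫ x in S, F x ≤ t * ε := by
  rw [integral_eq_lintegral_of_nonneg_ae (Eventually.of_forall hF0) hFm.restrict]
  refine ENNReal.toReal_le_of_le_ofReal (by positivity) ?_
  calc ∫⁻ x in S, ENNReal.ofReal (F x)
      ≤ ∫⁻ x in S, ENNReal.ofReal t * ENNReal.ofReal (g x ^ 2) := by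
        refine lintegral_mono_ae ((ae_restrict_iff' hS).2 ?_)
        filter_upwards [hle] with x hx hxs
        rw [← ENNReal.ofReal_mul ht]
        exact ENNReal.ofReal_le_ofReal (hx hxs)
    _ = ENNReal.ofReal t * ∫⁻ x in S, ENNReal.ofReal (g x ^ 2) :=
        lintegral_const_mul' _ _ ENNReal.ofReal_ne_top
    _ ≤ ENNReal.ofReal t * ENNReal.ofReal ε := by gcongr
    _ = ENNReal.ofReal (t * ε) := (ENNReal.ofReal_mul ht).symm

theorem shell_isOpen (r R : ℝ) : IsOpen (shell r R) :=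
  (isOpen_lt continuous_const continuous_norm).inter (isOpen_lt continuous_norm continuous_const)

/-- K2a: lower bound of the first orbital on a shell. -/
theorem k2a {r d R c₀ C : ℝ} (hr : 0 ≤ r) (hd : 0 < d) (hR : r + 4 * d ≤ R) (hc₀ : 0 < c₀)
    (hC : 0 < C) :
    ∃ ε > 0, ∀ (v : R3 → ℝ) (μ δ : ℝ) (φ a s : R3 → ℝ) (gφ ga gs : Fin 3 → R3 → ℝ),
      KSData v μ δ φ a s gφ ga gs → δ ≤ 1 →
      (∀ᵐ x, x ∈ shell r R → c₀ ≤ s x ∧ s x ≤ C) →
      ∀ φ0 : R3 → ℝ, (∀ᵐ x, x ∈ shell r R → c₀ ≤ φ0 x) →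
      ∫⁻ x in shell r R, ENNReal.ofReal ((φ x - φ0 x) ^ 2) ≤ ENNReal.ofReal ε →
      ∀ᵐ x, r + 2 * d ≤ ‖x‖ → ‖x‖ ≤ R - 2 * d → c₀ / C / 2 * s x ≤ φ x := by
  obtain ⟨ε₁, hε₁, H⟩ := quot_dg (r₀ := r) (r₁ := r + d) (ρ₁ := r + 2 * d) (ρ₂ := R - 2 * d)
    (R₁ := R - d) (R₀ := R) (c := c₀) (C := C) (C₁ := C) (K := c₀ * C) (k := c₀ / C) hr
    (by linarith) (by linarith) (by linarith) (by linarith) (by linarith) hc₀ hC.le hC.le
    (by positivity) (by positivity)
  refine ⟨ε₁ * c₀ ^ 2, by positivity, ?_⟩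
  intro v μ δ φ a s gφ ga gs D hδ hs φ0 hφ0 hclose
  have hs0 : ∀ᵐ x, 0 ≤ s x := by
    filter_upwards [D.φpos, D.φle] with x h1 h2 using h1.le.trans h2
  have hsub : shell (r + d) (R - d) ⊆ shell r R := fun x hx => by
    obtain ⟨h1, h2⟩ := hx
    exact ⟨by linarith, by linarith⟩
  refine H v μ s φ gs gφ D.memV D.hs D.hφ hs0 ?_ ?_ ?_
  · filter_upwards [hs, D.φpos, D.φle] with x h1 h2 h3 h4
    obtain ⟨h5, h6⟩ := h1 h4
    refine ⟨h5, h6, ?_⟩
    rw [abs_of_pos h2]
    exact h3.trans h6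
  · intro η gη e1 e2 e3 e4 e5
    obtain ⟨M, hM⟩ := e3
    have hηb : ∀ᵐ x, |η x| ≤ M := by
      filter_upwards [e2, hM] with x h4 h5
      rwa [abs_of_nonneg h4]
    have hηs : ∀ᵐ x, η x ≠ 0 → |s x| ≤ C := by
      filter_upwards [hs, e4, hs0] with x h4 h5 h6 h7
      have h8 : x ∈ shell (r + d) (R - d) := by
        by_contra hcon; exact h7 (h5 hcon)
      rw [abs_of_nonneg h6]
      exact (h4 (hsub h8)).2
    have hηφ : ∀ᵐ x, η x ≠ 0 → |φ x| ≤ C := by
      filter_upwards [hηs, D.φpos, D.φle] with x h4 h5 h6 h7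
      have := h4 h7
      rw [abs_of_pos h5]
      exact h6.trans ((le_abs_self _).trans this)
    have H1s := D.hs.mul_bdd e1 hηb hηs
    have H1φ := D.hφ.mul_bdd e1 hηb hηφ
    have h1 : qf v μ φ gφ (fun x => s x * η x) (fun i x => gs i x * η x + s x * gη i x) =
      -δ * ∫ x, φ x * (s x * η x) := D.eqφ _ _ H1s
    have h2 : qf v μ s gs (fun x => φ x * η x) (fun i x => gφ i x * η x + φ x * gη i x) ≤ 0 :=
      D.subs _ _ H1φ (by
        filter_upwards [e2, D.φpos] with x h4 h5 using mul_nonneg h5.le h4)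
    have hηi := e1.integrable_of_bdd_support (shell_isOpen _ _).measurableSet
      (shell_finite (r + d) (R - d)) e4
    have hint : Integrable (fun x => φ x * (s x * η x)) (volume : Measure R3) :=
      D.hφ.mem.integrable_mul H1s.mem
    have h3 : ∫ x, φ x * (s x * η x) ≤ c₀ * C * ∫ x, η x := by
      rw [← integral_const_mul]
      refine integral_mono_ae hint (hηi.const_mul _) ?_
      filter_upwards [e2, e4, e5, hs, hs0, D.φpos] with x h4 h5 h6 h7 h8 h9
      by_cases hx : η x = 0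
      · simp [hx]
      · have h10 : x ∈ shell (r + d) (R - d) := by
          by_contra hcon; exact hx (h5 hcon)
        have h11 : φ x < c₀ / C * s x := by
          by_contra hcon; exact hx (h6 (not_lt.1 hcon))
        have h12 := (h7 (hsub h10)).2
        have h13 : φ x * s x ≤ c₀ * C := by
          calc φ x * s x ≤ (c₀ / C * C) * C := by gcongr; exact h11.le.trans (by gcongr)
            _ = c₀ * C := by field_simp
        calc φ x * (s x * η x) = (φ x * s x) * η x := by ring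
          _ ≤ c₀ * C * η x := by gcongr
    have h4 : 0 ≤ ∫ x, φ x * (s x * η x) := by
      refine integral_nonneg_of_ae ?_
      filter_upwards [e2, hs0, D.φpos] with x h5 h6 h7
      exact mul_nonneg h7.le (mul_nonneg h6 h5)
    have h5 : δ * ∫ x, φ x * (s x * η x) ≤ ∫ x, φ x * (s x * η x) := by
      calc δ * ∫ x, φ x * (s x * η x) ≤ 1 * ∫ x, φ x * (s x * η x) := by gcongr
        _ = _ := one_mul _
    rw [h1]
    linarith
  · have hS := (shell_isOpen (r + d) (R - d)).measurableSet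
    have hclose' : ∫⁻ x in shell (r + d) (R - d), ENNReal.ofReal ((φ x - φ0 x) ^ 2) ≤
        ENNReal.ofReal (ε₁ * c₀ ^ 2) := (lintegral_mono_set hsub).trans hclose
    have h1 := small_of_close hS (F := fun x => max (c₀ / C - φ x / s x) 0 ^ 2)
      (g := fun x => φ x - φ0 x)
      (((aestronglyMeasurable_const.sub (D.hφ.mem.1.aemeasurable.div
        D.hs.mem.1.aemeasurable).aestronglyMeasurable).sup aestronglyMeasurable_const).pow 2)
      (fun x => sq_nonneg _) (t := 1 / c₀ ^ 2) (by positivity) (by positivity) (by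
        filter_upwards [hs, hφ0] with x h1 h2 h3
        obtain ⟨h4, h5⟩ := h1 (hsub h3)
        have h6 := h2 (hsub h3)
        have h7 : 0 < s x := hc₀.trans_le h4
        have h8 : max (c₀ / C - φ x / s x) 0 ≤ |φ x - φ0 x| / c₀ := by
          refine max_le ?_ (by positivity)
          have h9 : c₀ / C - φ x / s x = (c₀ / C * s x - φ x) / s x := by field_simp
          rw [h9, div_le_div_iff₀ h7 hc₀]
          have h10 : c₀ / C * s x ≤ c₀ := by
            calc c₀ / C * s x ≤ c₀ / C * C := by gcongr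
              _ = c₀ := by field_simp
          have h11 : c₀ / C * s x - φ x ≤ |φ x - φ0 x| := by
            have := neg_abs_le (φ x - φ0 x); linarith
          calc (c₀ / C * s x - φ x) * c₀ ≤ |φ x - φ0 x| * c₀ := by gcongr
            _ ≤ |φ x - φ0 x| * s x := by gcongr
        calc max (c₀ / C - φ x / s x) 0 ^ 2 ≤ (|φ x - φ0 x| / c₀) ^ 2 :=
              pow_le_pow_left₀ (le_max_right _ _) h8 2
          _ = 1 / c₀ ^ 2 * (φ x - φ0 x) ^ 2 := by rw [div_pow, sq_abs]; ring) hclose'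
    refine h1.trans (le_of_eq ?_)
    field_simp

/-- K2b: lower bound of the HOMO function on a smaller shell. -/
theorem k2b {r d R c₀ c₂ C C₁ : ℝ} (hr : 0 ≤ r) (hd : 0 < d) (hR : r + 4 * d ≤ R) (hc₀ : 0 < c₀)
    (hc₂ : 0 < c₂) (hC : 0 < C) (hC₁ : 0 ≤ C₁) :
    ∃ ε > 0, ∀ (v : R3 → ℝ) (μ δ : ℝ) (φ a s : R3 → ℝ) (gφ ga gs : Fin 3 → R3 → ℝ),
      KSData v μ δ φ a s gφ ga gs → δ ≤ 1 →
      (∀ᵐ x, x ∈ shell r R → c₂ ≤ φ x ∧ φ x ≤ C ∧ |a x| ≤ C₁) →
      ∀ a0 : R3 → ℝ, (∀ᵐ x, x ∈ shell r R → c₀ ≤ a0 x) →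
      ∫⁻ x in shell r R, ENNReal.ofReal ((a x - a0 x) ^ 2) ≤ ENNReal.ofReal ε →
      ∀ᵐ x, r + 2 * d ≤ ‖x‖ → ‖x‖ ≤ R - 2 * d → c₀ / C / 2 * φ x ≤ a x := by
  obtain ⟨ε₁, hε₁, H⟩ := quot_dg (r₀ := r) (r₁ := r + d) (ρ₁ := r + 2 * d) (ρ₂ := R - 2 * d)
    (R₁ := R - d) (R₀ := R) (c := c₂) (C := C) (C₁ := C₁) (K := C * C₁) (k := c₀ / C) hr
    (by linarith) (by linarith) (by linarith) (by linarith) (by linarith) hc₂ hC.le hC₁
    (by positivity) (by positivity)
  refine ⟨ε₁ * c₂ ^ 2, by positivity, ?_⟩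
  intro v μ δ φ a s gφ ga gs D hδ hs a0 ha0 hclose
  have hφ0 : ∀ᵐ x, 0 ≤ φ x := by
    filter_upwards [D.φpos] with x h1 using h1.le
  have hsub : shell (r + d) (R - d) ⊆ shell r R := fun x hx => by
    obtain ⟨h1, h2⟩ := hx
    exact ⟨by linarith, by linarith⟩
  refine H v μ φ a gφ ga D.memV D.hφ D.ha hφ0 hs ?_ ?_
  · intro η gη e1 e2 e3 e4 _
    obtain ⟨M, hM⟩ := e3
    have hηb : ∀ᵐ x, |η x| ≤ M := by
      filter_upwards [e2, hM] with x h4 h5
      rwa [abs_of_nonneg h4]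
    have hηφ : ∀ᵐ x, η x ≠ 0 → |φ x| ≤ C := by
      filter_upwards [hs, e4, hφ0] with x h4 h5 h6 h7
      have h8 : x ∈ shell (r + d) (R - d) := by
        by_contra hcon; exact h7 (h5 hcon)
      rw [abs_of_nonneg h6]
      exact (h4 (hsub h8)).2.1
    have hηa : ∀ᵐ x, η x ≠ 0 → |a x| ≤ C₁ := by
      filter_upwards [hs, e4] with x h4 h5 h7
      have h8 : x ∈ shell (r + d) (R - d) := by
        by_contra hcon; exact h7 (h5 hcon)
      exact (h4 (hsub h8)).2.2
    have H1φ := D.hφ.mul_bdd e1 hηb hηφ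
    have H1a := D.ha.mul_bdd e1 hηb hηa
    have h1 : qf v μ a ga (fun x => φ x * η x) (fun i x => gφ i x * η x + φ x * gη i x) = 0 :=
      D.eqa _ _ H1φ
    have h2 : qf v μ φ gφ (fun x => a x * η x) (fun i x => ga i x * η x + a x * gη i x) =
      -δ * ∫ x, φ x * (a x * η x) := D.eqφ _ _ H1a
    have hηi := e1.integrable_of_bdd_support (shell_isOpen _ _).measurableSet
      (shell_finite (r + d) (R - d)) e4
    have hint : Integrable (fun x => φ x * (a x * η x)) (volume : Measure R3) :=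
      D.hφ.mem.integrable_mul H1a.mem
    have h3 : -(C * C₁ * ∫ x, η x) ≤ ∫ x, φ x * (a x * η x) := by
      rw [← integral_const_mul, ← integral_neg]
      refine integral_mono_ae (hηi.const_mul _).neg hint ?_
      filter_upwards [e2, e4, hs, hφ0] with x h4 h5 h6 h7
      by_cases hx : η x = 0
      · simp [hx]
      · have h10 : x ∈ shell (r + d) (R - d) := by
          by_contra hcon; exact hx (h5 hcon)
        obtain ⟨-, h12, h13⟩ := h6 (hsub h10)
        have h14 : |φ x * a x| ≤ C * C₁ := by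
          rw [abs_mul, abs_of_nonneg h7]
          gcongr
        have h15 := (abs_le.1 h14).1
        have h16 : -(C * C₁) * η x ≤ (φ x * a x) * η x := mul_le_mul_of_nonneg_right h15 h4
        calc -(C * C₁ * η x) = -(C * C₁) * η x := by ring
          _ ≤ (φ x * a x) * η x := h16
          _ = φ x * (a x * η x) := by ring
    have h4 : 0 ≤ C * C₁ * ∫ x, η x := by
      have : 0 ≤ ∫ x, η x := integral_nonneg_of_ae e2
      positivity
    have hδ0 := D.δpos
    rw [h1, h2]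
    have h5 : -(C * C₁ * ∫ x, η x) ≤ δ * (-(C * C₁ * ∫ x, η x)) := by nlinarith
    have h6 : δ * (-(C * C₁ * ∫ x, η x)) ≤ δ * ∫ x, φ x * (a x * η x) :=
      mul_le_mul_of_nonneg_left h3 hδ0.le
    linarith
  · have hS := (shell_isOpen (r + d) (R - d)).measurableSet
    have hclose' : ∫⁻ x in shell (r + d) (R - d), ENNReal.ofReal ((a x - a0 x) ^ 2) ≤
        ENNReal.ofReal (ε₁ * c₂ ^ 2) := (lintegral_mono_set hsub).trans hclose
    have h1 := small_of_close hS (F := fun x => max (c₀ / C - a x / φ x) 0 ^ 2)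
      (g := fun x => a x - a0 x)
      (((aestronglyMeasurable_const.sub (D.ha.mem.1.aemeasurable.div
        D.hφ.mem.1.aemeasurable).aestronglyMeasurable).sup aestronglyMeasurable_const).pow 2)
      (fun x => sq_nonneg _) (t := 1 / c₂ ^ 2) (by positivity) (by positivity) (by
        filter_upwards [hs, ha0] with x h1 h2 h3
        obtain ⟨h4, h5, -⟩ := h1 (hsub h3)
        have h6 := h2 (hsub h3)
        have h7 : 0 < φ x := hc₂.trans_le h4
        have h8 : max (c₀ / C - a x / φ x) 0 ≤ |a x - a0 x| / c₂ := by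
          refine max_le ?_ (by positivity)
          have h9 : c₀ / C - a x / φ x = (c₀ / C * φ x - a x) / φ x := by field_simp
          rw [h9, div_le_div_iff₀ h7 hc₂]
          have h10 : c₀ / C * φ x ≤ c₀ := by
            calc c₀ / C * φ x ≤ c₀ / C * C := by gcongr
              _ = c₀ := by field_simp
          have h11 : c₀ / C * φ x - a x ≤ |a x - a0 x| := by
            have := neg_abs_le (a x - a0 x); linarith
          calc (c₀ / C * φ x - a x) * c₂ ≤ |a x - a0 x| * c₂ := by gcongr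
            _ ≤ |a x - a0 x| * φ x := by gcongr
        calc max (c₀ / C - a x / φ x) 0 ^ 2 ≤ (|a x - a0 x| / c₂) ^ 2 :=
              pow_le_pow_left₀ (le_max_right _ _) h8 2
          _ = 1 / c₂ ^ 2 * (a x - a0 x) ^ 2 := by rw [div_pow, sq_abs]; ring) hclose'
    refine h1.trans (le_of_eq ?_)
    field_simp

/-- B8-1 (K1+K2+K3). Uniform lower bound `a ≥ c √n` in the whole exterior of a ball, with `c`
independent of the Kohn-Sham potential. `φ0`, `a0` are the limits (`1s`, multiple of `2s`). -/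
theorem ks_lower (r R c₀ C₀ A : ℝ) (hr : 0 < r) (hrR : r < R) (hc₀ : 0 < c₀) :
    ∃ ε > 0, ∃ c > 0, ∀ (v : R3 → ℝ) (μ δ : ℝ) (φ a s : R3 → ℝ) (gφ ga gs : Fin 3 → R3 → ℝ),
      KSData v μ δ φ a s gφ ga gs → δ ≤ 1 →
      (∀ᵐ x, |a x| ≤ A * s x) →
      (∀ᵐ x, x ∈ shell r R → c₀ ≤ s x ∧ s x ≤ C₀) →
      ∀ φ0 a0 : R3 → ℝ, (∀ᵐ x, x ∈ shell r R → c₀ ≤ φ0 x ∧ c₀ ≤ a0 x) →
      ∫⁻ x in shell r R, ENNReal.ofReal ((φ x - φ0 x) ^ 2) ≤ ENNReal.ofReal ε →
      ∫⁻ x in shell r R, ENNReal.ofReal ((a x - a0 x) ^ 2) ≤ ENNReal.ofReal ε →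
      ∀ χ : R3 → ℝ, Test χ → (∀ x, r < ‖x‖ → χ x = 0) →
      (1 / 2) * (∫ x, (∑ i, (fderiv ℝ χ x (dir i)) ^ 2) * φ x ^ 2) <
        δ * ∫ x, χ x ^ 2 * φ x ^ 2 →
      ∀ᵐ x, (r + R) / 2 < ‖x‖ → c * s x ≤ a x := by
  set d : ℝ := (R - r) / 16 with hd
  have hd0 : 0 < d := by rw [hd]; linarith
  have hRd : R = r + 16 * d := by rw [hd]; ring
  set C : ℝ := max C₀ c₀ with hCdef
  have hC : 0 < C := lt_of_lt_of_le hc₀ (le_max_right _ _)
  obtain ⟨ε₁, hε₁, H₁⟩ := k2a (r := r) (d := d) (R := R) (c₀ := c₀) (C := C) hr.le hd0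
    (by linarith) hc₀ hC
  obtain ⟨ε₂, hε₂, H₂⟩ := k2b (r := r + 2 * d) (d := d) (R := R - 2 * d) (c₀ := c₀)
    (c₂ := c₀ / C / 2 * c₀) (C := C) (C₁ := |A| * C) (by linarith) hd0 (by linarith) hc₀
    (by positivity) hC (by positivity)
  refine ⟨min ε₁ ε₂, lt_min hε₁ hε₂, (c₀ / C / 2) * (c₀ / C / 2), by positivity, ?_⟩
  intro v μ δ φ a s gφ ga gs D hδ ha hs φ0 a0 h0 hcl1 hcl2 χ hχ hχr hneg
  have hs0 : ∀ᵐ x, 0 ≤ s x := by
    filter_upwards [D.φpos, D.φle] with x h1 h2 using h1.le.trans h2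
  have hs' : ∀ᵐ x, x ∈ shell r R → c₀ ≤ s x ∧ s x ≤ C := by
    filter_upwards [hs] with x h1 h2
    exact ⟨(h1 h2).1, (h1 h2).2.trans (le_max_left _ _)⟩
  have hA1 := H₁ v μ δ φ a s gφ ga gs D hδ hs' φ0 (by
      filter_upwards [h0] with x h1 h2 using (h1 h2).1)
    (hcl1.trans (ENNReal.ofReal_le_ofReal (min_le_left _ _)))
  have hsub : shell (r + 2 * d) (R - 2 * d) ⊆ shell r R := fun x hx => by
    obtain ⟨h1, h2⟩ := hx
    exact ⟨by linarith, by linarith⟩
  have hA2 := H₂ v μ δ φ a s gφ ga gs D hδ (by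
      filter_upwards [hA1, hs', ha, D.φle, hs0] with x h1 h2 h3 h4 h5 h6
      obtain ⟨h7, h8⟩ := h2 (hsub h6)
      refine ⟨?_, h4.trans h8, ?_⟩
      · have h9 := h1 h6.1.le h6.2.le
        have h10 : c₀ / C / 2 * c₀ ≤ c₀ / C / 2 * s x := by gcongr
        exact h10.trans h9
      · calc |a x| ≤ A * s x := h3
          _ ≤ |A| * s x := by gcongr; exact le_abs_self A
          _ ≤ |A| * C := by gcongr) a0 (by
      filter_upwards [h0] with x h1 h2 using (h1 (hsub h2)).2)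
    ((lintegral_mono_set hsub).trans (hcl2.trans (ENNReal.ofReal_le_ofReal (min_le_right _ _))))
  have hext := extend_exterior D (r := r) (c := (c₀ / C / 2) * (c₀ / C / 2))
    (ρa := r + 2 * d + 2 * d) (ρb := R - 2 * d - 2 * d) (by positivity) (by linarith)
    (by linarith) (by linarith) hχ hχr hneg (by
      filter_upwards [hA1, hA2] with x h1 h2 h3 h4
      have h5 := h1 (by linarith) (by linarith)
      have h6 := h2 h3 h4
      have h7 : 0 < c₀ / C / 2 := by positivity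
      calc c₀ / C / 2 * (c₀ / C / 2) * s x = c₀ / C / 2 * (c₀ / C / 2 * s x) := by ring
        _ ≤ c₀ / C / 2 * φ x := by gcongr
        _ ≤ a x := h6)
  filter_upwards [hext] with x hx h1
  exact hx (by linarith)

end

end Vale.Agent.P363.R.KS
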