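import Vale.Agent.P363.R.KS.DeGiorgi

/-! De Giorgi's first lemma on a spherical shell. -/

namespace Vale.Agent.P363.R.KS

open MeasureTheory Filter Topology
open Vale.Agent.P363.Stmt (R3 MemV)
open Vale.Agent.P363.R.Sob
open scoped ContDiff ENNReal NNReal

noncomputable section

theorem exists_deriv_smoothTransition_bound :
    ∃ L, 0 ≤ L ∧ ∀ t, |deriv Real.smoothTransition t| ≤ L := by
  have hc : Continuous (deriv Real.smoothTransition) :=
    (Real.smoothTransition.contDiff (n := 1)).continuous_deriv le_rfl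
  obtain ⟨L, hL⟩ := isCompact_Icc.exists_bound_of_continuousOn (s := Set.Icc (0 : ℝ) 1)
    hc.continuousOn
  refine ⟨max L 0, le_max_right _ _, fun t => ?_⟩
  rcases lt_or_ge t 0 with h | h
  · have : Real.smoothTransition =ᶠ[𝓝 t] fun _ => 0 := by
      filter_upwards [Iio_mem_nhds h] with s hs
      exact Real.smoothTransition.zero_of_nonpos (le_of_lt hs)
    rw [this.deriv_eq]
    simp
  · rcases lt_or_ge 1 t with h' | h'
    · have : Real.smoothTransition =ᶠ[𝓝 t] fun _ => 1 := by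
        filter_upwards [Ioi_mem_nhds h'] with s hs
        exact Real.smoothTransition.one_of_one_le (le_of_lt hs)
      rw [this.deriv_eq]
      simp
    · exact (hL t ⟨h, h'⟩).trans (le_max_left _ _)

/-- radial cutoff in the variable `‖x‖²`: `0` for `‖x‖² ≤ a`, `1` for `b ≤ ‖x‖² ≤ b'`,
`0` for `‖x‖² ≥ a'`. -/
def cutR (a b b' a' : ℝ) (x : R3) : ℝ :=
  Real.smoothTransition ((‖x‖ ^ 2 - a) / (b - a)) *
    Real.smoothTransition ((a' - ‖x‖ ^ 2) / (a' - b'))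

theorem cutR_nonneg (a b b' a' : ℝ) (x : R3) : 0 ≤ cutR a b b' a' x :=
  mul_nonneg (Real.smoothTransition.nonneg _) (Real.smoothTransition.nonneg _)

theorem cutR_le_one (a b b' a' : ℝ) (x : R3) : cutR a b b' a' x ≤ 1 :=
  mul_le_one₀ (Real.smoothTransition.le_one _) (Real.smoothTransition.nonneg _)
    (Real.smoothTransition.le_one _)

theorem cutR_eq_one {a b b' a' : ℝ} (h1 : a < b) (h2 : b' < a') {x : R3} (h3 : b ≤ ‖x‖ ^ 2)
    (h4 : ‖x‖ ^ 2 ≤ b') : cutR a b b' a' x = 1 := by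
  unfold cutR
  rw [Real.smoothTransition.one_of_one_le, Real.smoothTransition.one_of_one_le, one_mul]
  · rw [le_div_iff₀ (by linarith)]; linarith
  · rw [le_div_iff₀ (by linarith)]; linarith

theorem cutR_eq_zero_left {a b b' a' : ℝ} (h1 : a < b) {x : R3} (h3 : ‖x‖ ^ 2 ≤ a) :
    cutR a b b' a' x = 0 := by
  unfold cutR
  rw [Real.smoothTransition.zero_of_nonpos, zero_mul]
  exact div_nonpos_of_nonpos_of_nonneg (by linarith) (by linarith)

theorem cutR_eq_zero_right {a b b' a' : ℝ} (h2 : b' < a') {x : R3} (h3 : a' ≤ ‖x‖ ^ 2) :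
    cutR a b b' a' x = 0 := by
  unfold cutR
  rw [mul_comm, Real.smoothTransition.zero_of_nonpos, zero_mul]
  exact div_nonpos_of_nonpos_of_nonneg (by linarith) (by linarith)

theorem cutR_contDiff (a b b' a' : ℝ) : ContDiff ℝ ∞ (cutR a b b' a') := by
  unfold cutR
  refine ContDiff.mul ?_ ?_
  · exact Real.smoothTransition.contDiff.comp (((contDiff_norm_sq ℝ).sub contDiff_const).div_const _)
  · exact Real.smoothTransition.contDiff.comp ((contDiff_const.sub (contDiff_norm_sq ℝ)).div_const _)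

theorem cutR_test {a b b' a' : ℝ} (h2 : b' < a') : Test (cutR a b b' a') := by
  refine ⟨cutR_contDiff _ _ _ _, ?_⟩
  refine HasCompactSupport.intro (K := Metric.closedBall 0 (Real.sqrt a'))
    (isCompact_closedBall _ _) fun x hx => ?_
  apply cutR_eq_zero_right h2
  have : Real.sqrt a' < ‖x‖ := by simpa using hx
  by_cases h : 0 ≤ a'
  · rw [← Real.sq_sqrt h]
    exact pow_le_pow_left₀ (Real.sqrt_nonneg _) this.le 2
  · exact (not_le.1 h).le.trans (sq_nonneg _)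

theorem cutR_fderiv_bound {L : ℝ} (hL0 : 0 ≤ L) (hL : ∀ t, |deriv Real.smoothTransition t| ≤ L)
    {a b b' a' Rm : ℝ} (h1 : a < b) (h2 : b' < a') (hR : 0 ≤ Rm) (hR2 : a' ≤ Rm ^ 2) (x : R3)
    (i : Fin 3) :
    |fderiv ℝ (cutR a b b' a') x (dir i)| ≤ 2 * Rm * L * (1 / (b - a) + 1 / (a' - b')) := by
  have hpos : 0 ≤ 2 * Rm * L * (1 / (b - a) + 1 / (a' - b')) := by
    have := sub_pos.2 h1; have := sub_pos.2 h2; positivity
  rcases le_or_gt a' (‖x‖ ^ 2) with h | h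
  · rw [fderiv_eq_zero_of_nonneg (cutR_nonneg _ _ _ _) (cutR_eq_zero_right h2 h)]
    simpa using hpos
  · have hx : ‖x‖ ≤ Rm := by
      have : ‖x‖ ^ 2 ≤ Rm ^ 2 := h.le.trans hR2
      exact (sq_le_sq₀ (norm_nonneg _) hR).1 this
    have hd : ∀ t, HasDerivAt Real.smoothTransition (deriv Real.smoothTransition t) t := fun t =>
      ((Real.smoothTransition.contDiff (n := 1)).differentiable (by simp)).differentiableAt.hasDerivAt
    set T : R3 →L[ℝ] ℝ := (2 : ℝ) • (innerSL ℝ x : R3 →L[ℝ] ℝ) with hT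
    have hn : HasFDerivAt (fun y : R3 => ‖y‖ ^ 2) T x := by
      have h7 := (hasStrictFDerivAt_norm_sq x).hasFDerivAt
      have hT2 : T = (2 : ℕ) • (innerSL ℝ x : R3 →L[ℝ] ℝ) := by
        rw [hT]; ext y; simp
      rw [hT2]
      exact h7
    have e1 : HasFDerivAt (fun y : R3 => Real.smoothTransition ((‖y‖ ^ 2 - a) / (b - a)))
        ((deriv Real.smoothTransition ((‖x‖ ^ 2 - a) / (b - a))) • ((1 / (b - a)) • T)) x := by
      have h5 : HasFDerivAt (fun y : R3 => (‖y‖ ^ 2 - a) / (b - a)) ((1 / (b - a)) • T) x := by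
        have := (hn.sub_const a).mul_const (1 / (b - a))
        simpa [div_eq_mul_inv] using this
      exact (hd _).comp_hasFDerivAt x h5
    have e2 : HasFDerivAt (fun y : R3 => Real.smoothTransition ((a' - ‖y‖ ^ 2) / (a' - b')))
        ((deriv Real.smoothTransition ((a' - ‖x‖ ^ 2) / (a' - b'))) •
          ((1 / (a' - b')) • (-T))) x := by
      have h5 : HasFDerivAt (fun y : R3 => (a' - ‖y‖ ^ 2) / (a' - b'))
          ((1 / (a' - b')) • (-T)) x := by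
        have := (hn.const_sub a').mul_const (1 / (a' - b'))
        simpa [div_eq_mul_inv] using this
      exact (hd _).comp_hasFDerivAt x h5
    have e3 := e1.mul e2
    have e4 : fderiv ℝ (cutR a b b' a') x = _ := e3.fderiv
    rw [e4]
    have hin : |T (dir i)| ≤ 2 * Rm := by
      have : |(innerSL ℝ x : R3 →L[ℝ] ℝ) (dir i)| ≤ ‖x‖ * ‖dir i‖ :=
        abs_real_inner_le_norm x (dir i)
      have h6 : ‖dir i‖ = 1 := by simp [dir]
      rw [h6, mul_one] at this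
      rw [hT, smul_apply, smul_eq_mul, abs_mul, abs_of_pos (by norm_num : (0:ℝ) < 2)]
      linarith
    simp only [add_apply, smul_apply, smul_eq_mul,
      neg_apply]
    set s1 := Real.smoothTransition ((‖x‖ ^ 2 - a) / (b - a))
    set s2 := Real.smoothTransition ((a' - ‖x‖ ^ 2) / (a' - b'))
    set d1 := deriv Real.smoothTransition ((‖x‖ ^ 2 - a) / (b - a)) with hd1
    set d2 := deriv Real.smoothTransition ((a' - ‖x‖ ^ 2) / (a' - b')) with hd2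
    set n := T (dir i)
    have hs1 : |s1| ≤ 1 := by
      rw [abs_of_nonneg (Real.smoothTransition.nonneg _)]; exact Real.smoothTransition.le_one _
    have hs2 : |s2| ≤ 1 := by
      rw [abs_of_nonneg (Real.smoothTransition.nonneg _)]; exact Real.smoothTransition.le_one _
    have hb1 : 0 < 1 / (b - a) := by have := sub_pos.2 h1; positivity
    have hb2 : 0 < 1 / (a' - b') := by have := sub_pos.2 h2; positivity
    have t1 : |s1 * (d2 * (1 / (a' - b') * -n))| ≤ 1 * (L * (1 / (a' - b') * (2 * Rm))) := by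
      rw [abs_mul, abs_mul, abs_mul, abs_neg, abs_of_pos hb2]
      gcongr
      exact hL _
    have t2 : |s2 * (d1 * (1 / (b - a) * n))| ≤ 1 * (L * (1 / (b - a) * (2 * Rm))) := by
      rw [abs_mul, abs_mul, abs_mul, abs_of_pos hb1]
      gcongr
      exact hL _
    refine (abs_add_le _ _).trans ((add_le_add t1 t2).trans (le_of_eq ?_))
    ring

/-- pure real-number part of the iteration -/
theorem dg_iter {a : ℕ → ℝ} {Λ ε : ℝ} (hΛ : 0 ≤ Λ) (hε : 0 < ε) (hε2 : Λ * ε ^ 2 ≤ 1 / 32768)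
    (ha : ∀ j, 0 ≤ a j) (h0 : a 0 ≤ ε) (hs : ∀ j, a (j + 1) ^ 3 ≤ Λ * (4 ^ 5) ^ j * a j ^ 5) :
    ∀ j, a j ≤ ε * (1 / 32) ^ j := by
  intro j
  induction j with
  | zero => simpa using h0
  | succ j ih =>
    have h1 : a (j + 1) ^ 3 ≤ (ε * (1 / 32) ^ (j + 1)) ^ 3 := by
      calc a (j + 1) ^ 3 ≤ Λ * (4 ^ 5) ^ j * a j ^ 5 := hs j
        _ ≤ Λ * (4 ^ 5) ^ j * (ε * (1 / 32) ^ j) ^ 5 := by
            have := ha j
            gcongr
        _ = (Λ * ε ^ 2) * (ε ^ 3 * ((4 ^ 5) ^ j * ((1 / 32) ^ j) ^ 5)) := by ring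
        _ ≤ (1 / 32768) * (ε ^ 3 * ((4 ^ 5) ^ j * ((1 / 32) ^ j) ^ 5)) := by gcongr
        _ = (ε * (1 / 32) ^ (j + 1)) ^ 3 := by
            have e1 : ((4 : ℝ) ^ 5) ^ j * ((1 / 32 : ℝ) ^ j) ^ 5 = (1 / 32768) ^ j := by
              have e0 : ((1 / 32 : ℝ) ^ j) ^ 5 = ((1 / 32) ^ 5) ^ j := by
                rw [← pow_mul, ← pow_mul, mul_comm]
              rw [e0, ← mul_pow]
              norm_num
            have e2 : ((1 / 32 : ℝ) ^ (j + 1)) ^ 3 = (1 / 32768) ^ j * (1 / 32768) := by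
              have e0 : ((1 / 32 : ℝ) ^ (j + 1)) ^ 3 = ((1 / 32) ^ 3) ^ (j + 1) := by
                rw [← pow_mul, ← pow_mul, mul_comm]
              rw [e0, pow_succ]
              norm_num
            rw [e1, mul_pow, e2]
            ring
    exact le_of_pow_le_pow_left₀ (by norm_num) (by positivity) h1

theorem dg_algebra {CS c C K k B a : ℝ} (hCS : 0 < CS) (hc : 0 < c) (hC : 0 ≤ C) (hK : 0 ≤ K)
    (hk : 0 < k) (ha : 0 ≤ a) (j : ℕ) :
    (CS * ((8 * K / c) / (k / 4 * (1 / 2) ^ j) + (8 * C / c + 2) * (3 * (B * 2 ^ j) ^ 2)) *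
      a) ^ 3 * (a / (k / 4 * (1 / 2) ^ j) ^ 2) ^ 2 ≤
    ((CS * (32 * K / (c * k) + (8 * C / c + 2) * (3 * B ^ 2))) ^ 3 * 256 / k ^ 4) *
      (4 ^ 5) ^ j * a ^ 5 := by
  have e1 : ((1 : ℝ) / 2) ^ j = 1 / 2 ^ j := by rw [one_div, inv_pow, one_div]
  have h2j : (1 : ℝ) ≤ 2 ^ j := one_le_pow₀ (by norm_num)
  have e7 : ((4 : ℝ) ^ 5) ^ j = ((2 ^ j) ^ 2) ^ 5 := by
    rw [← pow_mul, ← pow_mul, ← pow_mul, show (4 : ℝ) = 2 ^ 2 by norm_num, ← pow_mul]
    congr 1; ring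
  rw [e1, e7]
  generalize (2 : ℝ) ^ j = X at h2j
  have hX : 0 < X := by linarith
  have e2 : (8 * K / c) / (k / 4 * (1 / X)) = (32 * K / (c * k)) * X := by
    field_simp; ring
  have e6 : (a / (k / 4 * (1 / X)) ^ 2) ^ 2 = a ^ 2 * (256 / k ^ 4 * (X ^ 2) ^ 2) := by
    field_simp; ring
  rw [e2, e6]
  have h5 : 0 ≤ 32 * K / (c * k) := by positivity
  have h6 : 0 ≤ 8 * C / c + 2 := by positivity
  generalize 32 * K / (c * k) = Y at h5
  generalize 8 * C / c + 2 = Z at h6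
  have e3 : Y * X ≤ Y * X ^ 2 := by
    have : X ≤ X ^ 2 := by nlinarith
    gcongr
  have e4 : CS * (Y * X + Z * (3 * (B * X) ^ 2)) ≤ (CS * (Y + Z * (3 * B ^ 2))) * X ^ 2 := by
    have : CS * (Y * X + Z * (3 * (B * X) ^ 2)) ≤ CS * (Y * X ^ 2 + Z * (3 * (B * X) ^ 2)) := by
      gcongr
    refine this.trans (le_of_eq ?_)
    ring
  have e5 : 0 ≤ CS * (Y * X + Z * (3 * (B * X) ^ 2)) := by positivity
  calc (CS * (Y * X + Z * (3 * (B * X) ^ 2)) * a) ^ 3 * (a ^ 2 * (256 / k ^ 4 * (X ^ 2) ^ 2))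
      ≤ ((CS * (Y + Z * (3 * B ^ 2))) * X ^ 2 * a) ^ 3 * (a ^ 2 * (256 / k ^ 4 * (X ^ 2) ^ 2)) := by
        gcongr
    _ = _ := by ring

/-- annulus in the variable `‖x‖²`. -/
def ann (lo hi : ℝ) : Set R3 := {x | lo < ‖x‖ ^ 2 ∧ ‖x‖ ^ 2 < hi}

theorem ann_subset_shell {r R lo hi : ℝ} (hR : 0 < R) (h1 : r ^ 2 ≤ lo) (h2 : hi ≤ R ^ 2) :
    ann lo hi ⊆ shell r R := by
  intro x hx
  have hx1 : r ^ 2 < ‖x‖ ^ 2 := h1.trans_lt hx.1
  have hx2 : ‖x‖ ^ 2 < R ^ 2 := hx.2.trans_le h2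
  exact ⟨lt_of_pow_lt_pow_left₀ 2 (norm_nonneg _) hx1, lt_of_pow_lt_pow_left₀ 2 hR.le hx2⟩

theorem ann_measurable (lo hi : ℝ) : MeasurableSet (ann lo hi) :=
  (measurableSet_lt measurable_const (measurable_norm.pow_const 2)).inter
      (measurableSet_lt (measurable_norm.pow_const 2) measurable_const)

theorem shell_finite (r R : ℝ) : (volume : Measure R3) (shell r R) ≠ ⊤ := by
  refine ne_top_of_le_ne_top (measure_ball_lt_top (μ := (volume : Measure R3)) (x := 0) (r := R)).ne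
    (measure_mono fun x hx => ?_)
  simpa using hx.2

/-- the De Giorgi step on annuli -/
theorem dg_step_ann {CS L : ℝ} (hCS : 0 < CS) (sob : ∀ (f : R3 → ℝ) (g : Fin 3 → R3 → ℝ), H1 f g →
      ∫ x, f x ^ 6 ≤ (CS * ∫ x, ∑ k, g k x ^ 2) ^ 3)
    (hL0 : 0 ≤ L) (hL : ∀ t, |deriv Real.smoothTransition t| ≤ L)
    {r R : ℝ} (hR : 0 < R)
    {u P : R3 → ℝ} {gu : Fin 3 → R3 → ℝ} (hu : H1 u gu)
    (hPm : AEStronglyMeasurable P (volume : Measure R3)) {κ κ' c C K M : ℝ} (hc : 0 < c)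
    (hC : 0 ≤ C) (hK : 0 ≤ K) (hκ : κ' < κ)
    (hP : ∀ᵐ x, x ∈ shell r R → c ≤ P x ∧ P x ≤ C) (hM : ∀ᵐ x, -M ≤ u x)
    (hyp : ∀ η gη, H1 η gη → (∀ᵐ x, 0 ≤ η x) → (∃ M, ∀ᵐ x, η x ≤ M) →
      (∀ᵐ x, x ∉ shell r R → η x = 0) → (∀ᵐ x, κ' ≤ u x → η x = 0) →
      -(K * ∫ x, η x) ≤ (1 / 2) * ∫ x, P x * ∑ i, gu i x * gη i x)
    {lo lo' hi' hi : ℝ} (h1 : lo < lo') (h2 : hi' < hi) (h3 : r ^ 2 ≤ lo) (h4 : hi ≤ R ^ 2) :
    (∫ x in ann lo' hi', max (κ' - u x) 0 ^ 2) ^ 3 ≤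
      (CS * ((8 * K / c) / (κ - κ') + (8 * C / c + 2) *
        (3 * (2 * R * L * (1 / (lo' - lo) + 1 / (hi - hi'))) ^ 2)) *
        ∫ x in ann lo hi, max (κ - u x) 0 ^ 2) ^ 3 *
        ((∫ x in ann lo hi, max (κ - u x) 0 ^ 2) / (κ - κ') ^ 2) ^ 2 := by
  have hsub := ann_subset_shell (r := r) hR h3 h4
  exact dg_step hCS sob hu hPm hc hC hK hκ hsub (ann_measurable _ _) (ann_measurable _ _)
    (ne_top_of_le_ne_top (shell_finite r R) (measure_mono hsub)) hP hM hyp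
    (ζ := cutR lo lo' hi' hi) (cutR_test h2) (cutR_nonneg _ _ _ _) (cutR_le_one _ _ _ _)
    (fun x hx => by
      by_cases h5 : lo < ‖x‖ ^ 2
      · have h6 : hi ≤ ‖x‖ ^ 2 := by
          by_contra hcon
          exact hx ⟨h5, not_le.1 hcon⟩
        exact cutR_eq_zero_right h2 h6
      · exact cutR_eq_zero_left h1 (not_lt.1 h5))
    (fun x hx => cutR_eq_one h1 h2 hx.1.le hx.2.le)
    (fun x i => cutR_fderiv_bound hL0 hL h1 h2 hR.le h4 x i)

/-- passing to the limit in the iteration -/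
theorem dg_limit {u : R3 → ℝ} {gu : Fin 3 → R3 → ℝ} (hu : H1 u gu) {T : Set R3}
    (hTm : MeasurableSet T) {A : ℕ → Set R3} (hA : ∀ j, (volume : Measure R3) (A j) ≠ ⊤)
    (hTA : ∀ j, T ⊆ A j) {κ : ℕ → ℝ} {l ε : ℝ} (hκ : ∀ j, l ≤ κ j)
    (hdec : ∀ j, ∫ x in A j, max (κ j - u x) 0 ^ 2 ≤ ε * (1 / 32) ^ j) :
    ∀ᵐ x, x ∈ T → l ≤ u x := by
  have hTf : (volume : Measure R3) T ≠ ⊤ := ne_top_of_le_ne_top (hA 0) (measure_mono (hTA 0))
  have hint : IntegrableOn (fun x => max (l - u x) 0 ^ 2) T (volume : Measure R3) :=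
    (trunc_memLp_restrict hu l hTf).integrable_sq
  have hle : ∀ j, ∫ x in T, max (l - u x) 0 ^ 2 ≤ ε * (1 / 32) ^ j := by
    intro j
    refine le_trans ?_ (hdec j)
    have hintj : IntegrableOn (fun x => max (κ j - u x) 0 ^ 2) (A j) (volume : Measure R3) :=
      (trunc_memLp_restrict hu (κ j) (hA j)).integrable_sq
    have h3 : ∫ x in T, max (l - u x) 0 ^ 2 ≤ ∫ x in T, max (κ j - u x) 0 ^ 2 := by
      refine setIntegral_mono hint (hintj.mono_set (hTA j)) fun x => ?_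
      have h5 : max (l - u x) 0 ≤ max (κ j - u x) 0 :=
        max_le_max (by have := hκ j; linarith) le_rfl
      exact pow_le_pow_left₀ (le_max_right _ _) h5 2
    exact h3.trans (setIntegral_mono_set hintj (Eventually.of_forall fun x => sq_nonneg _)
      (Eventually.of_forall fun x hx => hTA j hx))
  have hzero : ∫ x in T, max (l - u x) 0 ^ 2 = 0 := by
    refine le_antisymm ?_ (integral_nonneg fun x => sq_nonneg _)
    have hlim : Tendsto (fun j : ℕ => ε * (1 / 32 : ℝ) ^ j) atTop (𝓝 (ε * 0)) :=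
      (tendsto_pow_atTop_nhds_zero_of_lt_one (by norm_num) (by norm_num)).const_mul ε
    rw [mul_zero] at hlim
    exact ge_of_tendsto hlim (Eventually.of_forall hle)
  have hae := (setIntegral_eq_zero_iff_of_nonneg_ae
    (Eventually.of_forall fun x => sq_nonneg _) hint).1 hzero
  have hae2 := (ae_restrict_iff' hTm).1 hae
  filter_upwards [hae2] with x hx h3
  have h5 := hx h3
  simp only [Pi.zero_apply] at h5
  have h6 : max (l - u x) 0 = 0 := by simpa using h5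
  have h7 := le_max_left (l - u x) 0
  rw [h6] at h7
  linarith

/-- shrinking inner radius (squared) -/
def lo (r ρ₁ : ℝ) (j : ℕ) : ℝ := ρ₁ ^ 2 - (ρ₁ ^ 2 - r ^ 2) * (1 / 2) ^ j

/-- shrinking outer radius (squared) -/
def hi (ρ₂ R : ℝ) (j : ℕ) : ℝ := ρ₂ ^ 2 + (R ^ 2 - ρ₂ ^ 2) * (1 / 2) ^ j

/-- levels -/
def lev (k : ℝ) (j : ℕ) : ℝ := k / 2 + k / 2 * (1 / 2) ^ j

theorem half_pow_pos (j : ℕ) : (0 : ℝ) < (1 / 2) ^ j := by positivity

theorem half_pow_le (j : ℕ) : ((1 : ℝ) / 2) ^ j ≤ 1 := pow_le_one₀ (by norm_num) (by norm_num)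

theorem lo_diff (r ρ₁ : ℝ) (j : ℕ) :
    lo r ρ₁ (j + 1) - lo r ρ₁ j = (ρ₁ ^ 2 - r ^ 2) * (1 / 2) ^ (j + 1) := by
  simp only [lo, pow_succ]; ring

theorem hi_diff (ρ₂ R : ℝ) (j : ℕ) :
    hi ρ₂ R j - hi ρ₂ R (j + 1) = (R ^ 2 - ρ₂ ^ 2) * (1 / 2) ^ (j + 1) := by
  simp only [hi, pow_succ]; ring

theorem lev_diff (k : ℝ) (j : ℕ) : lev k j - lev k (j + 1) = k / 4 * (1 / 2) ^ j := by
  simp only [lev, pow_succ]; ring

theorem lo_ge {r ρ₁ : ℝ} (h : 0 < ρ₁ ^ 2 - r ^ 2) (j : ℕ) : r ^ 2 ≤ lo r ρ₁ j := by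
  have := mul_le_mul_of_nonneg_left (half_pow_le j) h.le
  simp only [lo]; linarith

theorem hi_le {ρ₂ R : ℝ} (h : 0 < R ^ 2 - ρ₂ ^ 2) (j : ℕ) : hi ρ₂ R j ≤ R ^ 2 := by
  have := mul_le_mul_of_nonneg_left (half_pow_le j) h.le
  simp only [hi]; linarith

theorem lev_le {k : ℝ} (h : 0 < k) (j : ℕ) : lev k j ≤ k := by
  have := mul_le_mul_of_nonneg_left (half_pow_le j) (by positivity : 0 ≤ k / 2)
  simp only [lev]; linarith

theorem le_lev {k : ℝ} (h : 0 < k) (j : ℕ) : k / 2 ≤ lev k j := by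
  have := mul_pos (by positivity : 0 < k / 2) (half_pow_pos j)
  simp only [lev]; linarith

theorem D_eq {R L x y : ℝ} (hx : 0 < x) (hy : 0 < y) (j : ℕ) :
    2 * R * L * (1 / (x * (1 / 2) ^ (j + 1)) + 1 / (y * (1 / 2) ^ (j + 1))) =
      4 * R * L * (1 / x + 1 / y) * 2 ^ j := by
  have e1 : ((1 : ℝ) / 2) ^ (j + 1) = 1 / (2 * 2 ^ j) := by
    rw [one_div, inv_pow, pow_succ, one_div, mul_comm]
  rw [e1]
  field_simp
  ring

/-- De Giorgi's first lemma on a shell. -/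
theorem deGiorgi_shell {r ρ₁ ρ₂ R c C K k : ℝ} (hr : 0 ≤ r) (h1 : r < ρ₁) (h12 : ρ₁ ≤ ρ₂)
    (h2 : ρ₂ < R) (hc : 0 < c) (hC : 0 ≤ C) (hK : 0 ≤ K) (hk : 0 < k) :
    ∃ ε > 0, ∀ (u P : R3 → ℝ) (gu : Fin 3 → R3 → ℝ) (M : ℝ), H1 u gu →
      AEStronglyMeasurable P (volume : Measure R3) →
      (∀ᵐ x, x ∈ shell r R → c ≤ P x ∧ P x ≤ C) → (∀ᵐ x, -M ≤ u x) →
      (∀ η gη, H1 η gη → (∀ᵐ x, 0 ≤ η x) → (∃ M, ∀ᵐ x, η x ≤ M) →
        (∀ᵐ x, x ∉ shell r R → η x = 0) → (∀ᵐ x, k ≤ u x → η x = 0) →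
        -(K * ∫ x, η x) ≤ (1 / 2) * ∫ x, P x * ∑ i, gu i x * gη i x) →
      ∫ x in shell r R, max (k - u x) 0 ^ 2 ≤ ε →
      ∀ᵐ x, ρ₁ ≤ ‖x‖ → ‖x‖ ≤ ρ₂ → k / 2 ≤ u x := by
  obtain ⟨CS, hCS, sob⟩ := sobolev_real
  obtain ⟨L, hL0, hL⟩ := exists_deriv_smoothTransition_bound
  have hρ1 : 0 < ρ₁ := lt_of_le_of_lt hr h1
  have hρ2 : 0 < ρ₂ := lt_of_lt_of_le hρ1 h12
  have hR0 : 0 < R := hρ2.trans h2
  have hΔ1 : 0 < ρ₁ ^ 2 - r ^ 2 := by
    have := pow_lt_pow_left₀ h1 hr (n := 2) (by norm_num); linarith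
  have hΔ2 : 0 < R ^ 2 - ρ₂ ^ 2 := by
    have := pow_lt_pow_left₀ h2 hρ2.le (n := 2) (by norm_num); linarith
  set B : ℝ := 4 * R * L * (1 / (ρ₁ ^ 2 - r ^ 2) + 1 / (R ^ 2 - ρ₂ ^ 2)) with hB
  set Λ : ℝ := ((CS * (32 * K / (c * k) + (8 * C / c + 2) * (3 * B ^ 2))) ^ 3 * 256 / k ^ 4)
    with hΛ
  have hΛ0 : 0 ≤ Λ := by positivity
  refine ⟨1 / (32768 * (Λ + 1)), by positivity, ?_⟩
  intro u P gu M hu hPm hP hM hyp hsmall
  have hε2 : Λ * (1 / (32768 * (Λ + 1))) ^ 2 ≤ 1 / 32768 := by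
    rw [div_pow, one_pow, mul_one_div, div_le_div_iff₀ (by positivity) (by norm_num)]
    nlinarith [sq_nonneg Λ]
  -- base case
  have hbase : ∫ x in ann (lo r ρ₁ 0) (hi ρ₂ R 0), max (lev k 0 - u x) 0 ^ 2 ≤
      1 / (32768 * (Λ + 1)) := by
    refine le_trans ?_ hsmall
    have h3 : lev k 0 = k := by simp only [lev]; ring
    have hint : IntegrableOn (fun x => max (k - u x) 0 ^ 2) (shell r R) (volume : Measure R3) :=
      (trunc_memLp_restrict hu k (shell_finite r R)).integrable_sq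
    rw [h3]
    exact setIntegral_mono_set hint (Eventually.of_forall fun x => sq_nonneg _)
      (Eventually.of_forall fun x hx => ann_subset_shell hR0 (lo_ge hΔ1 0) (hi_le hΔ2 0) hx)
  -- the step
  have hstep : ∀ j, (∫ x in ann (lo r ρ₁ (j + 1)) (hi ρ₂ R (j + 1)),
      max (lev k (j + 1) - u x) 0 ^ 2) ^ 3 ≤
      Λ * (4 ^ 5) ^ j * (∫ x in ann (lo r ρ₁ j) (hi ρ₂ R j), max (lev k j - u x) 0 ^ 2) ^ 5 := by
    intro j
    have hlolt : lo r ρ₁ j < lo r ρ₁ (j + 1) := by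
      have := lo_diff r ρ₁ j; have h3 := mul_pos hΔ1 (half_pow_pos (j + 1)); linarith
    have hhilt : hi ρ₂ R (j + 1) < hi ρ₂ R j := by
      have := hi_diff ρ₂ R j; have h3 := mul_pos hΔ2 (half_pow_pos (j + 1)); linarith
    have hκlt : lev k (j + 1) < lev k j := by
      have := lev_diff k j
      have h3 := mul_pos (by positivity : 0 < k / 4) (half_pow_pos j); linarith
    have hb := dg_step_ann hCS sob hL0 hL (r := r) hR0 hu hPm hc hC hK hκlt hP hM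
      (fun η gη e1 e2 e3 e4 e5 => hyp η gη e1 e2 e3 e4 (by
        filter_upwards [e5] with x hx hx2
        exact hx ((lev_le hk (j + 1)).trans hx2)))
      hlolt hhilt (lo_ge hΔ1 j) (hi_le hΔ2 j)
    rw [lo_diff, hi_diff, lev_diff, D_eq hΔ1 hΔ2] at hb
    exact hb.trans (dg_algebra hCS hc hC hK hk (integral_nonneg fun x => sq_nonneg _) j)
  have hdec := dg_iter hΛ0 (by positivity) hε2
    (a := fun j => ∫ x in ann (lo r ρ₁ j) (hi ρ₂ R j), max (lev k j - u x) 0 ^ 2)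
    (fun j => integral_nonneg fun x => sq_nonneg _) hbase hstep
  -- conclusion
  have hfin := dg_limit hu (T := {x | ρ₁ ≤ ‖x‖ ∧ ‖x‖ ≤ ρ₂})
    ((measurableSet_le measurable_const measurable_norm).inter
      (measurableSet_le measurable_norm measurable_const))
    (A := fun j => ann (lo r ρ₁ j) (hi ρ₂ R j))
    (fun j => ne_top_of_le_ne_top (shell_finite r R)
      (measure_mono (ann_subset_shell hR0 (lo_ge hΔ1 j) (hi_le hΔ2 j))))
    (fun j x hx => by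
      have h3 : ρ₁ ^ 2 ≤ ‖x‖ ^ 2 := pow_le_pow_left₀ hρ1.le hx.1 2
      have h4 : ‖x‖ ^ 2 ≤ ρ₂ ^ 2 := pow_le_pow_left₀ (norm_nonneg _) hx.2 2
      constructor
      · have := mul_pos hΔ1 (half_pow_pos j); simp only [lo]; linarith
      · have := mul_pos hΔ2 (half_pow_pos j); simp only [hi]; linarith)
    (l := k / 2) (le_lev hk) hdec
  filter_upwards [hfin] with x hx h3 h4
  exact hx ⟨h3, h4⟩

end

end Vale.Agent.P363.R.KS
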