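import Vale.Agent.P363.R.KS.Calc

/-! De Giorgi's first lemma (weighted, with bounded forcing). -/

namespace Vale.Agent.P363.R.KS

open MeasureTheory Filter Topology
open Vale.Agent.P363.Stmt (R3 MemV)
open Vale.Agent.P363.R.Sob
open scoped ContDiff ENNReal NNReal

noncomputable section

theorem isWD_const (c : ℝ) (e : R3) : IsWD (volume : Measure R3) e (fun _ => c) (fun _ => 0) := by
  refine isWD_of_differentiable continuous_const (fun x => ?_) ?_
  · exact (hasFDerivAt_const c x).hasLineDerivAt e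
  · exact (locallyIntegrable_const (0 : ℝ))

theorem test_memLp {ψ : R3 → ℝ} (hψ : Test ψ) (p : ℝ≥0∞) : MemLp ψ p (volume : Measure R3) :=
  hψ.continuous.memLp_of_hasCompactSupport hψ.2

theorem trunc_memLp {u : R3 → ℝ} {gu : Fin 3 → R3 → ℝ} (hu : H1 u gu) (κ : ℝ) {ψ : R3 → ℝ}
    (hψ : Test ψ) : MemLp (fun x => ψ x * max (κ - u x) 0) 2 (volume : Measure R3) := by
  obtain ⟨C, hC0, hC⟩ := test_bdd hψ
  have h1 : MemLp (fun x => |κ * ψ x| + C * |u x|) 2 (volume : Measure R3) :=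
    ((test_memLp hψ 2).const_mul κ).abs.add (hu.mem.abs.const_mul C)
  have hm : AEStronglyMeasurable (fun x => ψ x * max (κ - u x) 0) (volume : Measure R3) :=
    hψ.continuous.aestronglyMeasurable.mul
      ((aestronglyMeasurable_const.sub hu.mem.1).sup aestronglyMeasurable_const)
  refine h1.of_le hm (Eventually.of_forall fun x => ?_)
  rw [Real.norm_eq_abs, Real.norm_eq_abs, abs_mul,
    abs_of_nonneg (le_max_right _ _ : (0 : ℝ) ≤ max (κ - u x) 0)]
  have h2 : max (κ - u x) 0 ≤ |κ| + |u x| := by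
    refine max_le ?_ (by positivity)
    have := le_abs_self κ
    have := neg_abs_le (u x)
    linarith
  have h3 : |ψ x| * max (κ - u x) 0 ≤ |ψ x| * |κ| + C * |u x| := by
    calc |ψ x| * max (κ - u x) 0 ≤ |ψ x| * (|κ| + |u x|) := by gcongr
      _ = |ψ x| * |κ| + |ψ x| * |u x| := by ring
      _ ≤ _ := by gcongr; exact hC x
  rw [abs_of_nonneg (by positivity : 0 ≤ |κ * ψ x| + C * |u x|), abs_mul κ]
  linarith

/-- truncation of an `H1` function from above, localised by a test function. -/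
theorem trunc_H1 {u : R3 → ℝ} {gu : Fin 3 → R3 → ℝ} (hu : H1 u gu) (κ : ℝ) {ψ : R3 → ℝ}
    (hψ : Test ψ) : H1 (fun x => ψ x * max (κ - u x) 0)
      (fun i x => fderiv ℝ ψ x (dir i) * max (κ - u x) 0 +
        ψ x * (if u x < κ then - gu i x else 0)) := by
  have hc : LocallyIntegrable (fun _ : R3 => κ) (volume : Measure R3) := locallyIntegrable_const _
  have hc0 : LocallyIntegrable (fun _ : R3 => (0 : ℝ)) (volume : Measure R3) :=
    locallyIntegrable_const _
  have hW : ∀ i, IsWD (volume : Measure R3) (dir i) (fun x => max (κ - u x) 0)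
      (fun x => if u x < κ then - gu i x else 0) := by
    intro i
    have h1 := (isWD_const κ (dir i)).sub (hu.wd i) hc hc0 hu.locInt (hu.glocInt i)
    have h2 := h1.pos_part (hc.sub hu.locInt) (hc0.sub (hu.glocInt i))
    simpa only [sub_pos, zero_sub] using h2
  have hl : LocallyIntegrable (fun x => max (κ - u x) 0) (volume : Measure R3) := by
    have h1 : LocallyIntegrable (fun x => |κ| + |u x|) (volume : Measure R3) :=
      (locallyIntegrable_const |κ|).add (fun x => (hu.locInt x).norm)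
    refine h1.mono ((aestronglyMeasurable_const.sub hu.mem.1).sup aestronglyMeasurable_const)
      (Eventually.of_forall fun x => ?_)
    simp only [Real.norm_eq_abs]
    rw [abs_of_nonneg (le_max_right _ _), abs_of_nonneg (by positivity)]
    refine max_le ?_ (by positivity)
    have := le_abs_self κ
    have := neg_abs_le (u x)
    linarith
  have hgm : ∀ i, MemLp (fun x => if u x < κ then - gu i x else 0) 2 (volume : Measure R3) := by
    intro i
    have h0 : NullMeasurableSet {x | u x < κ} (volume : Measure R3) :=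
      nullMeasurableSet_lt hu.mem.1.aemeasurable aemeasurable_const
    have h1 : AEStronglyMeasurable (fun x => if u x < κ then - gu i x else 0)
        (volume : Measure R3) := ((hu.gmem i).1.neg.indicator₀ h0)
    refine (hu.gmem i).of_le h1 (Eventually.of_forall fun x => ?_)
    split_ifs <;> simp
  refine ⟨trunc_memLp hu κ hψ, fun i => ?_, fun i => ?_⟩
  · obtain ⟨C, hC0, hC⟩ := test_bdd hψ
    exact (trunc_memLp hu κ (hψ.fderiv (dir i))).add
      (memLp_bdd_mul (hgm i) hψ.continuous.aestronglyMeasurable (Eventually.of_forall hC))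
  · have := (hW i).smooth_smul hψ.contDiff hl ((hgm i).locallyIntegrable (by norm_num))
    simpa using this

theorem fderiv_eq_zero_of_nonneg {ζ : R3 → ℝ} (h0 : ∀ x, 0 ≤ ζ x) {x : R3} (hx : ζ x = 0) :
    fderiv ℝ ζ x = 0 := by
  apply IsLocalMin.fderiv_eq_zero
  exact Eventually.of_forall fun y => by rw [hx]; exact h0 y

/-- Caccioppoli inequality for `(κ-u)⁺`. -/
theorem caccioppoli {u P : R3 → ℝ} {gu : Fin 3 → R3 → ℝ} (hu : H1 u gu)
    (hPm : AEStronglyMeasurable P (volume : Measure R3)) {κ c C K M : ℝ} (hc : 0 < c)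
    {Ω : Set R3} (hP : ∀ᵐ x, x ∈ Ω → c ≤ P x ∧ P x ≤ C) (hM : ∀ᵐ x, -M ≤ u x)
    (hyp : ∀ η gη, H1 η gη → (∀ᵐ x, 0 ≤ η x) → (∃ M, ∀ᵐ x, η x ≤ M) →
      (∀ᵐ x, x ∉ Ω → η x = 0) → (∀ᵐ x, κ ≤ u x → η x = 0) →
      -(K * ∫ x, η x) ≤ (1 / 2) * ∫ x, P x * ∑ i, gu i x * gη i x)
    {ζ : R3 → ℝ} (hζ : Test ζ) (hζ0 : ∀ x, 0 ≤ ζ x) (hζ1 : ∀ x, ζ x ≤ 1)
    (hζΩ : ∀ x, x ∉ Ω → ζ x = 0) :
    ∫ x, ∑ i, (fderiv ℝ ζ x (dir i) * max (κ - u x) 0 +
        ζ x * (if u x < κ then - gu i x else 0)) ^ 2 ≤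
      (8 * K / c) * (∫ x, ζ x ^ 2 * max (κ - u x) 0) +
      (8 * C / c + 2) * ∫ x, ∑ i, (fderiv ℝ ζ x (dir i) * max (κ - u x) 0) ^ 2 := by
  set w : R3 → ℝ := fun x => max (κ - u x) 0 with hw
  set G : Fin 3 → R3 → ℝ := fun i x => if u x < κ then - gu i x else 0 with hG
  have hw0 : ∀ x, 0 ≤ w x := fun x => le_max_right _ _
  -- the test function `η = ζ² w`
  have hζ2 : Test (fun x => ζ x ^ 2) := by
    have := hζ.mul hζ.contDiff
    simpa only [sq] using this
  have hη := trunc_H1 hu κ hζ2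
  have hfd : ∀ x (i : Fin 3), fderiv ℝ (fun x => ζ x ^ 2) x (dir i) =
      2 * ζ x * fderiv ℝ ζ x (dir i) := by
    intro x i
    have h1 : HasFDerivAt ζ (fderiv ℝ ζ x) x := (hζ.differentiable x).hasFDerivAt
    have h2 := h1.pow 2
    rw [h2.fderiv]
    simp
  have hζw := trunc_H1 hu κ hζ
  set gη : Fin 3 → R3 → ℝ := fun i x => fderiv ℝ (fun x => ζ x ^ 2) x (dir i) * w x +
    ζ x ^ 2 * G i x with hgη
  have key := hyp (fun x => ζ x ^ 2 * w x) gη hη
    (Eventually.of_forall fun x => by have := hw0 x; positivity)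
    ⟨|κ| + |M|, by
      filter_upwards [hM] with x hx
      have h1 : ζ x ^ 2 ≤ 1 := by have := hζ0 x; have := hζ1 x; nlinarith
      have h2 : w x ≤ |κ| + |M| := by
        refine max_le ?_ (by positivity)
        have := le_abs_self κ; have := le_abs_self M; linarith
      calc ζ x ^ 2 * w x ≤ 1 * w x := mul_le_mul_of_nonneg_right h1 (hw0 x)
        _ ≤ _ := by rw [one_mul]; exact h2⟩
    (Eventually.of_forall fun x hx => by simp [hζΩ x hx])
    (Eventually.of_forall fun x hx => by simp [hw, hx])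
  -- rewrite the right-hand side
  have e1 : ∀ x, P x * ∑ i, gu i x * gη i x = -(P x * ∑ i, G i x * gη i x) := by
    intro x
    by_cases hx : u x < κ
    · have : ∀ i, G i x = - gu i x := fun i => by simp [hG, hx]
      simp only [this, neg_mul, Finset.sum_neg_distrib, mul_neg, neg_neg]
    · have h1 : w x = 0 := by simp [hw]; linarith
      have h2 : ∀ i, G i x = 0 := fun i => by simp [hG, hx]
      have h3 : ∀ i, gη i x = 0 := fun i => by simp [hgη, h1, h2]
      simp [h3]
  have hGm : ∀ i, MemLp (G i) 2 (volume : Measure R3) := by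
    intro i
    have h0 : NullMeasurableSet {x | u x < κ} (volume : Measure R3) :=
      nullMeasurableSet_lt hu.mem.1.aemeasurable aemeasurable_const
    have h1 : AEStronglyMeasurable (fun x => if u x < κ then - gu i x else 0)
        (volume : Measure R3) := ((hu.gmem i).1.neg.indicator₀ h0)
    refine (hu.gmem i).of_le h1 (Eventually.of_forall fun x => ?_)
    simp only [hG]
    split_ifs <;> simp
  have hgη0 : ∀ x i, x ∉ Ω → gη i x = 0 := by
    intro x i hx
    simp [hgη, hfd, hζΩ x hx]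
  have hint1 : Integrable (fun x => P x * ∑ i, G i x * gη i x) (volume : Measure R3) := by
    have h1 : Integrable (fun x => C * ∑ i, |G i x * gη i x|) (volume : Measure R3) :=
      (integrable_finsetSum _ fun i _ => ((hGm i).integrable_mul (hη.gmem i)).abs).const_mul C
    refine h1.mono' (hPm.mul ?_) ?_
    · exact (integrable_finsetSum _ fun i _ =>
        ((hGm i).integrable_mul (hη.gmem i))).aestronglyMeasurable
    · filter_upwards [hP] with x hx
      rw [norm_mul, Real.norm_eq_abs, Real.norm_eq_abs]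
      by_cases hxΩ : x ∈ Ω
      · obtain ⟨h2, h3⟩ := hx hxΩ
        rw [abs_of_pos (lt_of_lt_of_le hc h2)]
        have h4 : |∑ i, G i x * gη i x| ≤ ∑ i, |G i x * gη i x| := Finset.abs_sum_le_sum_abs _ _
        have hC0 : 0 ≤ C := (hc.le.trans h2).trans h3
        gcongr
      · simp [hgη0 x _ hxΩ]
  have hint2 : Integrable (fun x => ∑ i, (fderiv ℝ ζ x (dir i) * w x) ^ 2)
      (volume : Measure R3) :=
    integrable_finsetSum _ fun i _ => (trunc_memLp hu κ (hζ.fderiv (dir i))).integrable_sq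
  have hint3 : Integrable (fun x => ∑ i, (fderiv ℝ ζ x (dir i) * w x + ζ x * G i x) ^ 2)
      (volume : Measure R3) :=
    integrable_finsetSum _ fun i _ => (hζw.gmem i).integrable_sq
  -- pointwise inequality
  have hpt : ∀ᵐ x, ∑ i, (fderiv ℝ ζ x (dir i) * w x + ζ x * G i x) ^ 2 ≤
      (4 / c) * (P x * ∑ i, G i x * gη i x) +
        (8 * C / c + 2) * ∑ i, (fderiv ℝ ζ x (dir i) * w x) ^ 2 := by
    filter_upwards [hP] with x hx
    by_cases hxΩ : x ∈ Ω
    · obtain ⟨h2, h3⟩ := hx hxΩ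
      rw [Finset.mul_sum, Finset.mul_sum, Finset.mul_sum, ← Finset.sum_add_distrib]
      refine Finset.sum_le_sum fun i _ => ?_
      simp only [hgη, hfd]
      set e := fderiv ℝ ζ x (dir i)
      set g := G i x
      set W := w x
      set z := ζ x
      have hP0 : 0 < P x := lt_of_lt_of_le hc h2
      have h5 : P x * (g * (2 * z * e * W + z ^ 2 * g)) ≥
          (c / 2) * (z * g) ^ 2 - 2 * C * (e * W) ^ 2 := by
        have h6 : g * (2 * z * e * W + z ^ 2 * g) ≥ (1 / 2) * (z * g) ^ 2 - 2 * (e * W) ^ 2 := by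
          nlinarith [sq_nonneg (z * g + 2 * (e * W))]
        have h7 : P x * (g * (2 * z * e * W + z ^ 2 * g)) ≥
            P x * ((1 / 2) * (z * g) ^ 2 - 2 * (e * W) ^ 2) :=
          mul_le_mul_of_nonneg_left h6 hP0.le
        have h8 : P x * (z * g) ^ 2 ≥ c * (z * g) ^ 2 :=
          mul_le_mul_of_nonneg_right h2 (sq_nonneg _)
        have h9 : P x * (e * W) ^ 2 ≤ C * (e * W) ^ 2 :=
          mul_le_mul_of_nonneg_right h3 (sq_nonneg _)
        nlinarith
      have h10 : (e * W + z * g) ^ 2 ≤ 2 * (e * W) ^ 2 + 2 * (z * g) ^ 2 := by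
        nlinarith [sq_nonneg (e * W - z * g)]
      have h11 : (z * g) ^ 2 ≤ (2 / c) * (P x * (g * (2 * z * e * W + z ^ 2 * g)) +
          2 * C * (e * W) ^ 2) := by
        rw [div_mul_eq_mul_div, le_div_iff₀ hc]
        nlinarith
      calc (e * W + z * g) ^ 2 ≤ 2 * (e * W) ^ 2 + 2 * ((2 / c) *
            (P x * (g * (2 * z * e * W + z ^ 2 * g)) + 2 * C * (e * W) ^ 2)) := by linarith
        _ = 4 / c * (P x * (g * (2 * z * e * W + z ^ 2 * g))) +
            (8 * C / c + 2) * (e * W) ^ 2 := by ring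
    · have h1 := hζΩ x hxΩ
      have h2 := fderiv_eq_zero_of_nonneg hζ0 h1
      simp [h1, h2, hgη0 x _ hxΩ]
  have h12 : ∫ x, ∑ i, (fderiv ℝ ζ x (dir i) * w x + ζ x * G i x) ^ 2 ≤
      ∫ x, ((4 / c) * (P x * ∑ i, G i x * gη i x) +
        (8 * C / c + 2) * ∑ i, (fderiv ℝ ζ x (dir i) * w x) ^ 2) :=
    integral_mono_ae hint3 ((hint1.const_mul _).add (hint2.const_mul _)) hpt
  rw [integral_add (hint1.const_mul _) (hint2.const_mul _), integral_const_mul,
    integral_const_mul] at h12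
  simp only [e1, integral_neg] at key
  have h13 : ∫ x, P x * ∑ i, G i x * gη i x ≤ 2 * K * ∫ x, ζ x ^ 2 * w x := by linarith
  refine h12.trans ?_
  have h14 : (4 / c) * ∫ x, P x * ∑ i, G i x * gη i x ≤ (4 / c) * (2 * K * ∫ x, ζ x ^ 2 * w x) :=
    mul_le_mul_of_nonneg_left h13 (by positivity)
  have h15 : (4 / c) * (2 * K * ∫ x, ζ x ^ 2 * w x) = (8 * K / c) * ∫ x, ζ x ^ 2 * w x := by ring
  linarith

/-- Hölder's inequality `(∫ F²)³ ≤ (∫ F⁶) m²` for `F` supported in a set of measure `≤ m`. -/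
theorem holder_two_six {F : R3 → ℝ} (h2 : MemLp F 2 (volume : Measure R3))
    (h6 : MemLp F 6 (volume : Measure R3)) {S : Set R3} (hS : NullMeasurableSet S volume) {m : ℝ}
    (hm0 : 0 ≤ m) (hm : (volume : Measure R3) S ≤ ENNReal.ofReal m)
    (hF : ∀ᵐ x, x ∉ S → F x = 0) :
    (∫ x, F x ^ 2) ^ 3 ≤ (∫ x, F x ^ 6) * m ^ 2 := by
  set I2 := ∫ x, F x ^ 2 with hI2
  have i6 : Integrable (fun x => F x ^ 6) (volume : Measure R3) := by
    have := h6.integrable_norm_rpow (by norm_num) (by norm_num)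
    refine this.congr (Eventually.of_forall fun x => ?_)
    have h : (6 : ℝ≥0∞).toReal = ((6 : ℕ) : ℝ) := by simp
    simp only [h, Real.rpow_natCast, Real.norm_eq_abs]
    exact (Even.pow_abs (by decide) _)
  have i2 : Integrable (fun x => F x ^ 2) (volume : Measure R3) := h2.integrable_sq
  have hI20 : 0 ≤ I2 := integral_nonneg fun x => sq_nonneg _
  have hI60 : 0 ≤ ∫ x, F x ^ 6 := integral_nonneg fun x => by positivity
  have hle : ∀ t : ℝ, 0 < t → I2 ≤ (1 / 3) * (∫ x, F x ^ 6) / t ^ 2 + (2 / 3) * t * m := by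
    intro t ht
    have hpt : ∀ᵐ x, F x ^ 2 ≤ (1 / 3) * F x ^ 6 / t ^ 2 + S.indicator (fun _ => (2 / 3) * t) x := by
      filter_upwards [hF] with x hx
      by_cases hxS : x ∈ S
      · rw [Set.indicator_of_mem hxS]
        have hy : 0 ≤ F x ^ 2 := sq_nonneg _
        have e : F x ^ 6 = (F x ^ 2) ^ 3 := by ring
        rw [e]
        generalize F x ^ 2 = y at hy
        have h1 : 0 ≤ (y - t) ^ 2 * (y + 2 * t) := by positivity
        have h3 : (1 / 3) * y ^ 3 / t ^ 2 + 2 / 3 * t - y = (y - t) ^ 2 * (y + 2 * t) / (3 * t ^ 2) := by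
          field_simp
          ring
        have h4 : 0 ≤ (y - t) ^ 2 * (y + 2 * t) / (3 * t ^ 2) := by positivity
        linarith
      · rw [Set.indicator_of_notMem hxS, hx hxS]
        simp
    have hind : Integrable (S.indicator (fun _ : R3 => (2 / 3) * t)) (volume : Measure R3) := by
      refine IntegrableOn.integrable_indicator₀ ?_ hS
      exact integrableOn_const (hs := (hm.trans_lt ENNReal.ofReal_lt_top).ne) 
    have h5 := integral_mono_ae i2 (((i6.const_mul (1 / 3)).div_const (t ^ 2)).add hind) hpt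
    have h5' : I2 ≤ ∫ x, ((1 / 3) * F x ^ 6 / t ^ 2 + S.indicator (fun _ => (2 / 3) * t) x) := h5
    rw [integral_add ((i6.const_mul (1 / 3)).div_const (t ^ 2)) hind, integral_div,
      integral_const_mul, integral_indicator₀ hS, setIntegral_const, smul_eq_mul] at h5'
    have h6 : (volume : Measure R3).real S ≤ m := by
      unfold Measure.real
      exact ENNReal.toReal_le_of_le_ofReal hm0 hm
    have h7 : (volume : Measure R3).real S * (2 / 3 * t) ≤ m * (2 / 3 * t) :=
      mul_le_mul_of_nonneg_right h6 (by positivity)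
    linarith
  rcases hI20.eq_or_lt with h0 | h0
  · rw [← h0]; simp; positivity
  rcases hm0.eq_or_lt with h1 | h1
  · -- `m = 0`: the estimate forces `I2 = 0`
    exfalso
    have hlim : ∀ t : ℝ, 0 < t → I2 * t ^ 2 ≤ (1 / 3) * (∫ x, F x ^ 6) := by
      intro t ht
      have := hle t ht
      rw [← h1, mul_zero, add_zero] at this
      rwa [le_div_iff₀ (by positivity)] at this
    have h3 := hlim (Real.sqrt (((∫ x, F x ^ 6) + 1) / I2)) (Real.sqrt_pos.2 (by positivity))
    rw [Real.sq_sqrt (by positivity), mul_div_cancel₀ _ h0.ne'] at h3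
    linarith
  · have h3 := hle (I2 / m) (by positivity)
    have h4 : (1 / 3) * (∫ x, F x ^ 6) / (I2 / m) ^ 2 + 2 / 3 * (I2 / m) * m =
        (1 / 3) * (∫ x, F x ^ 6) * m ^ 2 / I2 ^ 2 + 2 / 3 * I2 := by
      field_simp
    rw [h4] at h3
    have h5 : (1 / 3) * I2 ≤ (1 / 3) * (∫ x, F x ^ 6) * m ^ 2 / I2 ^ 2 := by linarith
    rw [le_div_iff₀ (by positivity)] at h5
    have h6 : I2 ^ 3 = 3 * ((1 / 3) * I2 * I2 ^ 2) := by ring
    rw [h6]
    linarith

theorem trunc_memLp_restrict {u : R3 → ℝ} {gu : Fin 3 → R3 → ℝ} (hu : H1 u gu) (κ : ℝ) {A : Set R3}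
    (hA : (volume : Measure R3) A ≠ ⊤) :
    MemLp (fun x => max (κ - u x) 0) 2 ((volume : Measure R3).restrict A) := by
  have : IsFiniteMeasure ((volume : Measure R3).restrict A) := ⟨by simpa using hA.lt_top⟩
  have h0 : MemLp (fun _ : R3 => |κ|) 2 ((volume : Measure R3).restrict A) := memLp_const _
  have h0' : MemLp (fun x => |u x|) 2 ((volume : Measure R3).restrict A) :=
    (hu.mem.restrict A).abs
  have h1 : MemLp (fun x => |κ| + |u x|) 2 ((volume : Measure R3).restrict A) := h0.add h0'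
  refine h1.of_le ((aestronglyMeasurable_const.sub hu.mem.1.restrict).sup
    aestronglyMeasurable_const) (Eventually.of_forall fun x => ?_)
  rw [Real.norm_eq_abs, Real.norm_eq_abs, abs_of_nonneg (le_max_right _ _),
    abs_of_nonneg (by positivity)]
  refine max_le ?_ (by positivity)
  have := le_abs_self κ
  have := neg_abs_le (u x)
  linarith

/-- the De Giorgi step. -/
theorem dg_step {CS : ℝ} (hCS : 0 < CS) (sob : ∀ (f : R3 → ℝ) (g : Fin 3 → R3 → ℝ), H1 f g →
      ∫ x, f x ^ 6 ≤ (CS * ∫ x, ∑ k, g k x ^ 2) ^ 3)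
    {u P : R3 → ℝ} {gu : Fin 3 → R3 → ℝ} (hu : H1 u gu)
    (hPm : AEStronglyMeasurable P (volume : Measure R3)) {κ κ' c C K M : ℝ} (hc : 0 < c)
    (hC : 0 ≤ C) (hK : 0 ≤ K) (hκ : κ' < κ)
    {Ω A A' : Set R3} (hAΩ : A ⊆ Ω) (hA : MeasurableSet A) (hA' : MeasurableSet A')
    (hAf : (volume : Measure R3) A ≠ ⊤)
    (hP : ∀ᵐ x, x ∈ Ω → c ≤ P x ∧ P x ≤ C) (hM : ∀ᵐ x, -M ≤ u x)
    (hyp : ∀ η gη, H1 η gη → (∀ᵐ x, 0 ≤ η x) → (∃ M, ∀ᵐ x, η x ≤ M) →
      (∀ᵐ x, x ∉ Ω → η x = 0) → (∀ᵐ x, κ' ≤ u x → η x = 0) →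
      -(K * ∫ x, η x) ≤ (1 / 2) * ∫ x, P x * ∑ i, gu i x * gη i x)
    {ζ : R3 → ℝ} (hζ : Test ζ) (hζ0 : ∀ x, 0 ≤ ζ x) (hζ1 : ∀ x, ζ x ≤ 1)
    (hζA : ∀ x, x ∉ A → ζ x = 0) (hζA' : ∀ x, x ∈ A' → ζ x = 1) {D : ℝ}
    (hD : ∀ x i, |fderiv ℝ ζ x (dir i)| ≤ D) :
    (∫ x in A', max (κ' - u x) 0 ^ 2) ^ 3 ≤
      (CS * ((8 * K / c) / (κ - κ') + (8 * C / c + 2) * (3 * D ^ 2)) *
        ∫ x in A, max (κ - u x) 0 ^ 2) ^ 3 *
        ((∫ x in A, max (κ - u x) 0 ^ 2) / (κ - κ') ^ 2) ^ 2 := by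
  set a := ∫ x in A, max (κ - u x) 0 ^ 2 with ha
  set d := κ - κ' with hd
  have hd0 : 0 < d := sub_pos.2 hκ
  have ha0 : 0 ≤ a := integral_nonneg fun x => sq_nonneg _
  have hwA : IntegrableOn (fun x => max (κ - u x) 0 ^ 2) A (volume : Measure R3) :=
    (trunc_memLp_restrict hu κ hAf).integrable_sq
  have hF := trunc_H1 hu κ' hζ
  have hD0 : 0 ≤ D := (abs_nonneg _).trans (hD 0 0)
  -- cutoff is zero off `A`, with its derivative
  have hζ' : ∀ x, x ∉ A → fderiv ℝ ζ x = 0 := fun x hx => fderiv_eq_zero_of_nonneg hζ0 (hζA x hx)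
  -- comparison of truncations
  have hww : ∀ x, max (κ' - u x) 0 ≤ max (κ - u x) 0 ^ 2 / d := by
    intro x
    rw [le_div_iff₀ hd0]
    rcases le_or_gt κ' (u x) with h | h
    · rw [max_eq_right (by linarith : κ' - u x ≤ 0), zero_mul]; positivity
    · rw [max_eq_left (by linarith : 0 ≤ κ' - u x), max_eq_left (by linarith : 0 ≤ κ - u x)]
      have h1 : 0 < κ' - u x := by linarith
      nlinarith [mul_pos h1 hd0]
  have hww2 : ∀ x, max (κ' - u x) 0 ^ 2 ≤ max (κ - u x) 0 ^ 2 := by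
    intro x
    have : max (κ' - u x) 0 ≤ max (κ - u x) 0 := max_le_max (by linarith) le_rfl
    have h0 : 0 ≤ max (κ' - u x) 0 := le_max_right _ _
    gcongr
  have hw0' : ∀ x, 0 ≤ max (κ' - u x) 0 := fun x => le_max_right _ _
  -- step 1: Caccioppoli + bounds
  have hcac := caccioppoli hu hPm hc hP hM hyp hζ hζ0 hζ1 (fun x hx => hζA x fun h => hx (hAΩ h))
  have hb1 : ∫ x, ζ x ^ 2 * max (κ' - u x) 0 ≤ a / d := by
    have h1 : Integrable (fun x => ζ x ^ 2 * max (κ' - u x) 0) (volume : Measure R3) := by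
      have := (test_memLp hζ 2).integrable_mul (trunc_memLp hu κ' hζ)
      refine this.congr (Eventually.of_forall fun x => ?_)
      simp only [Pi.mul_apply]; ring
    have h2 : Integrable (A.indicator fun x => max (κ - u x) 0 ^ 2 / d) (volume : Measure R3) :=
      (integrable_indicator_iff hA).2 (hwA.div_const d)
    have h3 : ∫ x, ζ x ^ 2 * max (κ' - u x) 0 ≤
        ∫ x, A.indicator (fun x => max (κ - u x) 0 ^ 2 / d) x := by
      refine integral_mono h1 h2 fun x => ?_
      by_cases hx : x ∈ A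
      · simp only [Set.indicator_of_mem hx]
        refine le_trans ?_ (hww x)
        have h4 : ζ x ^ 2 ≤ 1 := by have := hζ0 x; have := hζ1 x; nlinarith
        calc ζ x ^ 2 * max (κ' - u x) 0 ≤ 1 * max (κ' - u x) 0 :=
              mul_le_mul_of_nonneg_right h4 (hw0' x)
          _ = _ := one_mul _
      · simp [Set.indicator_of_notMem hx, hζA x hx]
    rw [integral_indicator hA, integral_div] at h3
    exact h3
  have hb2 : ∫ x, ∑ i, (fderiv ℝ ζ x (dir i) * max (κ' - u x) 0) ^ 2 ≤ 3 * D ^ 2 * a := by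
    have h1 : Integrable (fun x => ∑ i, (fderiv ℝ ζ x (dir i) * max (κ' - u x) 0) ^ 2)
        (volume : Measure R3) :=
      integrable_finsetSum _ fun i _ => (trunc_memLp hu κ' (hζ.fderiv (dir i))).integrable_sq
    have h2 : Integrable (A.indicator fun x => 3 * D ^ 2 * max (κ - u x) 0 ^ 2)
        (volume : Measure R3) := (integrable_indicator_iff hA).2 (hwA.const_mul _)
    have h3 : ∫ x, ∑ i, (fderiv ℝ ζ x (dir i) * max (κ' - u x) 0) ^ 2 ≤
        ∫ x, A.indicator (fun x => 3 * D ^ 2 * max (κ - u x) 0 ^ 2) x := by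
      refine integral_mono h1 h2 fun x => ?_
      by_cases hx : x ∈ A
      · simp only [Set.indicator_of_mem hx]
        have h4 : ∀ i ∈ (Finset.univ : Finset (Fin 3)),
            (fderiv ℝ ζ x (dir i) * max (κ' - u x) 0) ^ 2 ≤ D ^ 2 * max (κ - u x) 0 ^ 2 := by
          intro i _
          rw [mul_pow]
          have h5 : fderiv ℝ ζ x (dir i) ^ 2 ≤ D ^ 2 := by
            rw [← sq_abs]; exact pow_le_pow_left₀ (abs_nonneg _) (hD x i) 2
          exact mul_le_mul h5 (hww2 x) (sq_nonneg _) (sq_nonneg _)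
        refine (Finset.sum_le_sum h4).trans (le_of_eq ?_)
        simp; ring
      · simp [Set.indicator_of_notMem hx, hζ' x hx]
    rw [integral_indicator hA, integral_const_mul] at h3
    exact h3
  have hgrad : ∫ x, ∑ i, (fderiv ℝ ζ x (dir i) * max (κ' - u x) 0 +
        ζ x * (if u x < κ' then - gu i x else 0)) ^ 2 ≤
      ((8 * K / c) / d + (8 * C / c + 2) * (3 * D ^ 2)) * a := by
    refine hcac.trans ?_
    have h1 : (8 * K / c) * (∫ x, ζ x ^ 2 * max (κ' - u x) 0) ≤ (8 * K / c) * (a / d) :=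
      mul_le_mul_of_nonneg_left hb1 (by positivity)
    have h2 : (8 * C / c + 2) * (∫ x, ∑ i, (fderiv ℝ ζ x (dir i) * max (κ' - u x) 0) ^ 2) ≤
        (8 * C / c + 2) * (3 * D ^ 2 * a) := mul_le_mul_of_nonneg_left hb2 (by positivity)
    have h3 : (8 * K / c) * (a / d) + (8 * C / c + 2) * (3 * D ^ 2 * a) =
        ((8 * K / c) / d + (8 * C / c + 2) * (3 * D ^ 2)) * a := by ring
    linarith
  -- step 2: Sobolev
  have hsob := sob _ _ hF
  have h6 : ∫ x, (ζ x * max (κ' - u x) 0) ^ 6 ≤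
      (CS * ((8 * K / c) / d + (8 * C / c + 2) * (3 * D ^ 2)) * a) ^ 3 := by
    refine hsob.trans ?_
    have h0 : 0 ≤ ∫ x, ∑ i, (fderiv ℝ ζ x (dir i) * max (κ' - u x) 0 +
        ζ x * (if u x < κ' then - gu i x else 0)) ^ 2 :=
      integral_nonneg fun x => Finset.sum_nonneg fun i _ => sq_nonneg _
    refine pow_le_pow_left₀ (mul_nonneg hCS.le h0) ?_ 3
    rw [mul_assoc]
    exact mul_le_mul_of_nonneg_left hgrad hCS.le
  -- step 3: Hölder
  set S : Set R3 := A ∩ {x | u x < κ'} with hS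
  have hSm : NullMeasurableSet S (volume : Measure R3) :=
    hA.nullMeasurableSet.inter (nullMeasurableSet_lt hu.mem.1.aemeasurable aemeasurable_const)
  have hSf : (volume : Measure R3) S ≠ ⊤ := ne_top_of_le_ne_top hAf (measure_mono Set.inter_subset_left)
  have hSr : (volume : Measure R3).real S * d ^ 2 ≤ a := by
    have h1 : IntegrableOn (fun _ : R3 => d ^ 2) S (volume : Measure R3) :=
      integrableOn_const (hs := hSf)
    have h2 : IntegrableOn (fun x => max (κ - u x) 0 ^ 2) S (volume : Measure R3) :=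
      hwA.mono_set Set.inter_subset_left
    have h3 : ∫ x in S, d ^ 2 ≤ ∫ x in S, max (κ - u x) 0 ^ 2 := by
      refine setIntegral_mono_on₀ h1 h2 hSm fun x hx => ?_
      have h4 : u x < κ' := hx.2
      rw [max_eq_left (by linarith : 0 ≤ κ - u x)]
      have : d ≤ κ - u x := by rw [hd]; linarith
      gcongr
    rw [setIntegral_const, smul_eq_mul] at h3
    refine h3.trans ?_
    exact setIntegral_mono_set hwA (Eventually.of_forall fun x => sq_nonneg _)
      (Eventually.of_forall fun x hx => hx.1)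
  have hSm2 : (volume : Measure R3) S ≤ ENNReal.ofReal (a / d ^ 2) := by
    rw [← ENNReal.ofReal_toReal hSf]
    refine ENNReal.ofReal_le_ofReal ?_
    rw [le_div_iff₀ (by positivity)]
    exact hSr
  have hhol := holder_two_six hF.mem hF.memLp_six hSm (m := a / d ^ 2) (by positivity) hSm2
    (Eventually.of_forall fun x hx => by
      by_cases hxA : x ∈ A
      · have : κ' ≤ u x := by
          by_contra hcon
          exact hx ⟨hxA, by simpa using hcon⟩
        simp [this]
      · simp [hζA x hxA])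
  -- step 4: conclusion
  have hlow : ∫ x in A', max (κ' - u x) 0 ^ 2 ≤ ∫ x, (ζ x * max (κ' - u x) 0) ^ 2 := by
    have h1 : ∫ x in A', max (κ' - u x) 0 ^ 2 = ∫ x in A', (ζ x * max (κ' - u x) 0) ^ 2 := by
      refine setIntegral_congr_fun hA' fun x hx => ?_
      simp only [hζA' x hx, one_mul]
    rw [h1]
    exact setIntegral_le_integral hF.mem.integrable_sq (Eventually.of_forall fun x => sq_nonneg _)
  have hl0 : 0 ≤ ∫ x in A', max (κ' - u x) 0 ^ 2 := integral_nonneg fun x => sq_nonneg _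
  calc (∫ x in A', max (κ' - u x) 0 ^ 2) ^ 3 ≤ (∫ x, (ζ x * max (κ' - u x) 0) ^ 2) ^ 3 :=
        pow_le_pow_left₀ hl0 hlow 3
    _ ≤ (∫ x, (ζ x * max (κ' - u x) 0) ^ 6) * (a / d ^ 2) ^ 2 := hhol
    _ ≤ _ := mul_le_mul_of_nonneg_right h6 (sq_nonneg _)

end

end Vale.Agent.P363.R.KS
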