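import Vale.Agent.P363.R.KS.DGShell

/-! Quotients of solutions: the potential cancels (K2a, K2b). -/

namespace Vale.Agent.P363.R.KS

open MeasureTheory Filter Topology
open Vale.Agent.P363.Stmt (R3 MemV)
open Vale.Agent.P363.R.Sob
open scoped ContDiff ENNReal NNReal

noncomputable section

/-- `1/t` for `t ≥ c`, continued linearly (`C¹`). -/
def recip (c t : ℝ) : ℝ := if c ≤ t then 1 / t else (2 * c - t) / c ^ 2

def recip' (c t : ℝ) : ℝ := if c ≤ t then -(1 / t ^ 2) else -(1 / c ^ 2)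

theorem recip_of_le {c t : ℝ} (h : c ≤ t) : recip c t = 1 / t := if_pos h

theorem recip'_of_le {c t : ℝ} (h : c ≤ t) : recip' c t = -(1 / t ^ 2) := if_pos h

theorem continuous_recip {c : ℝ} (hc : 0 < c) : Continuous (recip c) := by
  have : recip c = fun t => 1 / (max t c) + (c - min t c) / c ^ 2 := by
    ext t
    unfold recip
    split_ifs with h
    · rw [max_eq_left h, min_eq_right h]; simp
    · rw [max_eq_right (not_le.1 h).le, min_eq_left (not_le.1 h).le]
      field_simp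
      ring
  rw [this]
  refine (continuous_const.div (continuous_id.max continuous_const) fun t => ?_).add
    ((continuous_const.sub (continuous_id.min continuous_const)).div_const _)
  have : 0 < max t c := lt_of_lt_of_le hc (le_max_right _ _)
  exact this.ne'

theorem continuous_recip' {c : ℝ} (hc : 0 < c) : Continuous (recip' c) := by
  have : recip' c = fun t => -(1 / (max t c) ^ 2) := by
    ext t
    unfold recip'
    split_ifs with h
    · rw [max_eq_left h]
    · rw [max_eq_right (not_le.1 h).le]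
  rw [this]
  refine (continuous_const.div ((continuous_id.max continuous_const).pow 2) fun t => ?_).neg
  have : 0 < max t c := lt_of_lt_of_le hc (le_max_right _ _)
  exact (pow_pos this 2).ne'

theorem hasDerivAt_recip {c : ℝ} (hc : 0 < c) (t : ℝ) : HasDerivAt (recip c) (recip' c t) t := by
  refine hasDerivAt_of_hasDerivAt_of_ne' (x := c) (fun y hy => ?_) (continuous_recip hc).continuousAt
    (continuous_recip' hc).continuousAt t
  rcases lt_or_gt_of_ne hy with h | h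
  · have e : recip c =ᶠ[𝓝 y] fun t => (2 * c - t) / c ^ 2 := by
      filter_upwards [Iio_mem_nhds h] with s hs
      exact if_neg (not_le.2 hs)
    rw [show recip' c y = -(1 / c ^ 2) from if_neg (not_le.2 h)]
    have h1 : HasDerivAt (fun t : ℝ => (2 * c - t) / c ^ 2) ((-1) / c ^ 2) y :=
      ((hasDerivAt_id y).const_sub (2 * c)).div_const _
    have h2 := h1.congr_of_eventuallyEq e
    convert h2 using 1
    ring
  · have e : recip c =ᶠ[𝓝 y] fun t => t⁻¹ := by
      filter_upwards [Ioi_mem_nhds h] with s hs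
      rw [recip_of_le (le_of_lt hs), one_div]
    rw [recip'_of_le h.le]
    have h1 := hasDerivAt_inv (show y ≠ 0 by linarith)
    have h2 := h1.congr_of_eventuallyEq e
    convert h2 using 1
    rw [one_div]

theorem abs_recip'_le {c : ℝ} (hc : 0 < c) (t : ℝ) : |recip' c t| ≤ 1 / c ^ 2 := by
  unfold recip'
  split_ifs with h
  · rw [abs_neg, abs_of_nonneg (by positivity)]
    have : 0 < c ^ 2 := by positivity
    gcongr
  · rw [abs_neg, abs_of_nonneg (by positivity)]

theorem abs_recip_le {c t : ℝ} (hc : 0 < c) (ht : 0 ≤ t) : |recip c t| ≤ 2 / c := by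
  unfold recip
  split_ifs with h
  · have ht' : 0 < t := lt_of_lt_of_le hc h
    rw [abs_of_nonneg (by positivity)]
    calc 1 / t ≤ 1 / c := by gcongr
      _ ≤ 2 / c := by gcongr; norm_num
  · have h1 : t < c := not_le.1 h
    have h2 : 0 ≤ 2 * c - t := by linarith
    rw [abs_of_nonneg (by positivity)]
    calc (2 * c - t) / c ^ 2 ≤ (2 * c) / c ^ 2 := by gcongr; linarith
      _ = 2 / c := by field_simp

variable {v : R3 → ℝ} {μ : ℝ}

/-- The localised quotient `(θ q)/p` as an `H1` function. -/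
theorem quot_H1 {p q : R3 → ℝ} {gp gq : Fin 3 → R3 → ℝ} (hp : H1 p gp) (hq : H1 q gq)
    {θ : R3 → ℝ} (hθ : Test θ) {c C₁ : ℝ} (hc : 0 < c) (hp0 : ∀ᵐ x, 0 ≤ p x)
    (hq1 : ∀ᵐ x, |θ x * q x| ≤ C₁) :
    H1 (fun x => θ x * q x * recip c (p x))
      (fun i x => (fderiv ℝ θ x (dir i) * q x + θ x * gq i x) * recip c (p x) +
        θ x * q x * (recip' c (p x) * gp i x)) := by
  have h1 := hq.mul_test hθ
  have hrm : AEStronglyMeasurable (fun x => recip c (p x)) (volume : Measure R3) :=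
    (continuous_recip hc).comp_aestronglyMeasurable hp.mem.1
  have hrb : ∀ᵐ x, |recip c (p x)| ≤ 2 / c := by
    filter_upwards [hp0] with x hx using abs_recip_le hc hx
  have hr'm : AEStronglyMeasurable (fun x => recip' c (p x)) (volume : Measure R3) :=
    (continuous_recip' hc).comp_aestronglyMeasurable hp.mem.1
  have hr'b : ∀ᵐ x, |recip' c (p x)| ≤ 1 / c ^ 2 :=
    Eventually.of_forall fun x => abs_recip'_le hc _
  have hWr : ∀ i, IsWD (volume : Measure R3) (dir i) (fun x => recip c (p x))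
      (fun x => recip' c (p x) * gp i x) := fun i =>
    (hp.wd i).comp hp.locInt (hp.glocInt i) (hasDerivAt_recip hc) (continuous_recip' hc)
      (1 / c ^ 2) (abs_recip'_le hc)
  have hgr : ∀ i, MemLp (fun x => recip' c (p x) * gp i x) 2 (volume : Measure R3) := fun i =>
    memLp_bdd_mul (hp.gmem i) hr'm hr'b
  refine ⟨?_, fun i => ?_, fun i => ?_⟩
  · have := memLp_bdd_mul h1.mem hrm hrb
    simpa only [mul_comm] using this
  · refine MemLp.add ?_ ?_
    · have := memLp_bdd_mul (h1.gmem i) hrm hrb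
      simpa only [mul_comm] using this
    · exact memLp_bdd_mul (hgr i) h1.mem.1 hq1
  · exact (h1.wd i).mul_bdd (hWr i) h1.mem.1 hrm (h1.glocInt i)
      ((hgr i).locallyIntegrable (by norm_num)) C₁ (2 / c) hq1 hrb

/-- Wronskian identity: the potential cancels. -/
theorem wronskian (hv : MemV v) {p q η : R3 → ℝ} {gp gq gη : Fin 3 → R3 → ℝ} (hp : H1 p gp)
    (hq : H1 q gq) (hη : H1 η gη) {C C' C'' : ℝ} (b : ∀ᵐ x, |η x| ≤ C)
    (bp : ∀ᵐ x, η x ≠ 0 → |p x| ≤ C') (bq : ∀ᵐ x, η x ≠ 0 → |q x| ≤ C'') :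
    qf v μ q gq (fun x => p x * η x) (fun i x => gp i x * η x + p x * gη i x) -
      qf v μ p gp (fun x => q x * η x) (fun i x => gq i x * η x + q x * gη i x) =
    (1 / 2) * ∫ x, ∑ i, (p x * gq i x - q x * gp i x) * gη i x := by
  have h1 := hp.mul_bdd hη b bp
  have h2 := hq.mul_bdd hη b bq
  unfold qf
  have e1 : ∫ x, ∑ i, (p x * gq i x - q x * gp i x) * gη i x =
      (∫ x, ∑ i, gq i x * (gp i x * η x + p x * gη i x)) -
        ∫ x, ∑ i, gp i x * (gq i x * η x + q x * gη i x) := by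
    rw [← integral_sub (hq.integrable_dot h1) (hp.integrable_dot h2)]
    congr 1
    ext x
    rw [← Finset.sum_sub_distrib]
    exact Finset.sum_congr rfl fun i _ => by ring
  have e2 : ∀ x, (v x - μ) * q x * (p x * η x) = (v x - μ) * p x * (q x * η x) := fun x => by ring
  simp only [e2]
  rw [e1]
  ring

/-- De Giorgi's lemma for a quotient of solutions. -/
theorem quot_dg {r₀ r₁ ρ₁ ρ₂ R₁ R₀ c C C₁ K k : ℝ} (hr : 0 ≤ r₀) (h0 : r₀ < r₁) (h1 : r₁ < ρ₁)
    (h12 : ρ₁ ≤ ρ₂) (h2 : ρ₂ < R₁) (h3 : R₁ < R₀) (hc : 0 < c) (hC : 0 ≤ C) (hC₁ : 0 ≤ C₁)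
    (hK : 0 ≤ K) (hk : 0 < k) :
    ∃ ε > 0, ∀ (v : R3 → ℝ) (μ : ℝ) (p q : R3 → ℝ) (gp gq : Fin 3 → R3 → ℝ), MemV v → H1 p gp →
      H1 q gq → (∀ᵐ x, 0 ≤ p x) → (∀ᵐ x, x ∈ shell r₀ R₀ → c ≤ p x ∧ p x ≤ C ∧ |q x| ≤ C₁) →
      (∀ η gη, H1 η gη → (∀ᵐ x, 0 ≤ η x) → (∃ M, ∀ᵐ x, η x ≤ M) →
        (∀ᵐ x, x ∉ shell r₁ R₁ → η x = 0) → (∀ᵐ x, k * p x ≤ q x → η x = 0) →
        -(K * ∫ x, η x) ≤
          qf v μ q gq (fun x => p x * η x) (fun i x => gp i x * η x + p x * gη i x) -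
          qf v μ p gp (fun x => q x * η x) (fun i x => gq i x * η x + q x * gη i x)) →
      ∫ x in shell r₁ R₁, max (k - q x / p x) 0 ^ 2 ≤ ε →
      ∀ᵐ x, ρ₁ ≤ ‖x‖ → ‖x‖ ≤ ρ₂ → k / 2 * p x ≤ q x := by
  have hr1 : 0 ≤ r₁ := hr.trans h0.le
  obtain ⟨ε, hε, H⟩ := deGiorgi_shell (r := r₁) (ρ₁ := ρ₁) (ρ₂ := ρ₂) (R := R₁) (c := c ^ 2)
    (C := C ^ 2) (K := K) (k := k) hr1 h1 h12 h2 (by positivity) (by positivity) hK hk
  refine ⟨ε, hε, ?_⟩
  intro v μ p q gp gq hv hp hq hp0 hb hyp hsmall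
  have hR1 : 0 < R₁ := lt_of_le_of_lt hr1 ((h1.trans_le h12).trans h2)
  -- cutoff
  have hlt1 : r₀ ^ 2 < r₁ ^ 2 := pow_lt_pow_left₀ h0 hr (by norm_num)
  have hlt2 : R₁ ^ 2 < R₀ ^ 2 := pow_lt_pow_left₀ h3 hR1.le (by norm_num)
  set θ : R3 → ℝ := cutR (r₀ ^ 2) (r₁ ^ 2) (R₁ ^ 2) (R₀ ^ 2) with hθdef
  have hθ : Test θ := cutR_test hlt2
  have hθ1 : ∀ x ∈ shell r₁ R₁, θ x = 1 := fun x hx =>
    cutR_eq_one hlt1 hlt2 (pow_le_pow_left₀ hr1 hx.1.le 2)
      (pow_le_pow_left₀ (norm_nonneg _) hx.2.le 2)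
  have hopen : IsOpen (shell r₁ R₁) :=
    (isOpen_lt continuous_const continuous_norm).inter (isOpen_lt continuous_norm continuous_const)
  have hθ1' : ∀ x ∈ shell r₁ R₁, fderiv ℝ θ x = 0 := fun x hx => by
    have : θ =ᶠ[𝓝 x] fun _ => 1 := by
      filter_upwards [hopen.mem_nhds hx] with y hy using hθ1 y hy
    rw [this.fderiv_eq]
    simp
  have hθ0 : ∀ x, x ∉ shell r₀ R₀ → θ x = 0 := fun x hx => by
    by_cases h5 : r₀ < ‖x‖
    · have h6 : R₀ ≤ ‖x‖ := by
        by_contra hcon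
        exact hx ⟨h5, not_le.1 hcon⟩
      exact cutR_eq_zero_right hlt2 (pow_le_pow_left₀ (hR1.le.trans h3.le) h6 2)
    · exact cutR_eq_zero_left hlt1 (pow_le_pow_left₀ (norm_nonneg _) (not_lt.1 h5) 2)
  have hsub : shell r₁ R₁ ⊆ shell r₀ R₀ := fun x hx => ⟨h0.trans hx.1, hx.2.trans h3⟩
  have hq1 : ∀ᵐ x, |θ x * q x| ≤ C₁ := by
    filter_upwards [hb] with x hx
    by_cases hxs : x ∈ shell r₀ R₀
    · have h4 := (hx hxs).2.2
      have h5 : |θ x| ≤ 1 := by
        rw [abs_of_nonneg (cutR_nonneg _ _ _ _ _)]; exact cutR_le_one _ _ _ _ _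
      rw [abs_mul]
      calc |θ x| * |q x| ≤ 1 * C₁ := by gcongr
        _ = C₁ := one_mul _
    · rw [hθ0 x hxs]; simpa using hC₁
  have hu := quot_H1 hp hq hθ hc hp0 hq1
  set u : R3 → ℝ := fun x => θ x * q x * recip c (p x) with hudef
  set gu : Fin 3 → R3 → ℝ := fun i x =>
    (fderiv ℝ θ x (dir i) * q x + θ x * gq i x) * recip c (p x) +
        θ x * q x * (recip' c (p x) * gp i x) with hgudef
  have hueq : ∀ᵐ x, x ∈ shell r₁ R₁ → u x = q x / p x := by
    filter_upwards [hb] with x hx hxs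
    have h4 := (hx (hsub hxs)).1
    simp only [hudef, hθ1 x hxs, one_mul, recip_of_le h4]
    ring
  have hgueq : ∀ᵐ x, x ∈ shell r₁ R₁ → ∀ i, p x ^ 2 * gu i x = p x * gq i x - q x * gp i x := by
    filter_upwards [hb] with x hx hxs i
    have h4 := (hx (hsub hxs)).1
    have h5 : p x ≠ 0 := (lt_of_lt_of_le hc h4).ne'
    simp only [hgudef, hθ1 x hxs, hθ1' x hxs, recip_of_le h4, recip'_of_le h4]
    simp only [zero_apply, zero_mul, zero_add, one_mul]
    field_simp
    ring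
  have hconc := H u (fun x => p x ^ 2) gu (C₁ * (2 / c)) hu (hp.mem.1.pow 2)
    (by
      filter_upwards [hb] with x hx hxs
      obtain ⟨h4, h5, -⟩ := hx (hsub hxs)
      have h6 : 0 ≤ p x := hc.le.trans h4
      exact ⟨pow_le_pow_left₀ hc.le h4 2, pow_le_pow_left₀ h6 h5 2⟩)
    (by
      filter_upwards [hq1, hp0] with x hx hx0
      have h4 : |u x| ≤ C₁ * (2 / c) := by
        simp only [hudef]
        rw [abs_mul]
        have := abs_recip_le hc hx0
        gcongr
      exact (abs_le.1 h4).1)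
    (by
      intro η gη e1 e2 e3 e4 e5
      obtain ⟨M, hM⟩ := e3
      have hηb : ∀ᵐ x, |η x| ≤ M := by
        filter_upwards [e2, hM] with x h4 h5
        rwa [abs_of_nonneg h4]
      have hηp : ∀ᵐ x, η x ≠ 0 → |p x| ≤ C := by
        filter_upwards [hb, e4] with x h4 h5 h6
        have h7 : x ∈ shell r₁ R₁ := by
          by_contra hcon; exact h6 (h5 hcon)
        obtain ⟨h8, h9, -⟩ := h4 (hsub h7)
        rwa [abs_of_nonneg (hc.le.trans h8)]
      have hηq : ∀ᵐ x, η x ≠ 0 → |q x| ≤ C₁ := by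
        filter_upwards [hb, e4] with x h4 h5 h6
        have h7 : x ∈ shell r₁ R₁ := by
          by_contra hcon; exact h6 (h5 hcon)
        exact (h4 (hsub h7)).2.2
      have h10 := hyp η gη e1 e2 ⟨M, hM⟩ e4 (by
        filter_upwards [hueq, e5, e4, hb] with x h4 h5 h6 h7 h8
        by_cases hxs : x ∈ shell r₁ R₁
        · apply h5
          rw [h4 hxs]
          have h9 : 0 < p x := lt_of_lt_of_le hc (h7 (hsub hxs)).1
          rwa [le_div_iff₀ h9]
        · exact h6 hxs)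
      rw [wronskian hv hp hq e1 hηb hηp hηq] at h10
      refine h10.trans (le_of_eq ?_)
      congr 1
      refine integral_congr_ae ?_
      filter_upwards [hgueq, e4, ae_all_iff.2 fun i => e1.ae_zero i 0] with x h4 h5 h6
      rw [Finset.mul_sum]
      refine Finset.sum_congr rfl fun i _ => ?_
      by_cases hxs : x ∈ shell r₁ R₁
      · rw [← h4 hxs i]; ring
      · rw [h6 i (h5 hxs)]; ring)
    (by
      refine le_trans (le_of_eq ?_) hsmall
      refine setIntegral_congr_ae hopen.measurableSet ?_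
      filter_upwards [hueq] with x hx hxs
      rw [hx hxs])
  filter_upwards [hconc, hueq, hb] with x hx h4 h5 h6 h7
  have hxs : x ∈ shell r₁ R₁ := ⟨h1.trans_le h6, h7.trans_lt h2⟩
  have h8 := hx h6 h7
  have h9 : 0 < p x := lt_of_lt_of_le hc (h5 (hsub hxs)).1
  rw [h4 hxs, le_div_iff₀ h9] at h8
  exact h8

end

end Vale.Agent.P363.R.KS
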