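import Vale.Agent.P363.R.KS.Defs
import Vale.Agent.P363.R.Sob.S01
import Vale.Agent.P363.R.Sob.S06
import Vale.Agent.P363.R.Sob.S08
import Vale.Agent.P363.R.Sob.S14

/-! Sobolev inequality `H¹(ℝ³) → L⁶(ℝ³)`, integrability of `v f h`. -/

namespace Vale.Agent.P363.R.KS

open MeasureTheory Filter Topology
open Vale.Agent.P363.Stmt (R3 MemV)
open Vale.Agent.P363.R.Sob
open scoped ContDiff ENNReal NNReal

noncomputable section

theorem norm_clm_le_sum (L : R3 →L[ℝ] ℝ) : ‖L‖ ≤ ∑ k : Fin 3, ‖L (dir k)‖ := by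
  refine L.opNorm_le_bound (Finset.sum_nonneg fun _ _ => norm_nonneg _) fun x => ?_
  have hx : x = ∑ k : Fin 3, x k • dir k := by
    ext i
    simp [dir, Fin.sum_univ_three]
    fin_cases i <;> simp
  conv_lhs => rw [hx]
  rw [map_sum, Finset.sum_mul]
  refine (norm_sum_le _ _).trans (Finset.sum_le_sum fun k _ => ?_)
  rw [map_smul, norm_smul, mul_comm]
  gcongr
  exact PiLp.norm_apply_le x k

theorem eLpNorm_six_le_of_smooth : ∃ C : ℝ≥0, ∀ f : R3 → ℝ, ContDiff ℝ ∞ f → HasCompactSupport f →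
    eLpNorm f 6 (volume : Measure R3) ≤
      C * ∑ k : Fin 3, eLpNorm (fun x => fderiv ℝ f x (dir k)) 2 (volume : Measure R3) := by
  refine ⟨eLpNormLESNormFDerivOfEqInnerConst (volume : Measure R3) 2, fun f hf hc => ?_⟩
  have h1 : ContDiff ℝ 1 f := hf.of_le (by simp)
  have h2 := eLpNorm_le_eLpNorm_fderiv_of_eq_inner (volume : Measure R3) h1 hc (p := 2) (p' := 6)
    (by norm_num) (by simp) (by simp; norm_num)
  have h2' : eLpNorm f 6 (volume : Measure R3) ≤
      (eLpNormLESNormFDerivOfEqInnerConst (volume : Measure R3) 2 : ℝ≥0) *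
        eLpNorm (fderiv ℝ f) 2 (volume : Measure R3) := by exact_mod_cast h2
  refine h2'.trans ?_
  gcongr
  have h3 : eLpNorm (fderiv ℝ f) 2 (volume : Measure R3) ≤
      eLpNorm (∑ k : Fin 3, fun x => ‖fderiv ℝ f x (dir k)‖) 2 (volume : Measure R3) := by
    refine eLpNorm_mono fun x => ?_
    have := norm_clm_le_sum (fderiv ℝ f x)
    simp only [Finset.sum_apply]
    rw [Real.norm_of_nonneg (Finset.sum_nonneg fun _ _ => norm_nonneg _)]
    exact this
  refine h3.trans ((eLpNorm_sum_le (fun k _ => ?_) (by norm_num)).trans ?_)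
  · have : Continuous (fderiv ℝ f) := hf.continuous_fderiv (by simp)
    exact ((this.clm_apply continuous_const).norm).aestronglyMeasurable
  · refine Finset.sum_le_sum fun k _ => ?_
    rw [eLpNorm_norm]

theorem sobolev_six : ∃ C : ℝ≥0, ∀ (f : R3 → ℝ) (g : Fin 3 → R3 → ℝ), H1 f g →
    eLpNorm f 6 (volume : Measure R3) ≤ C * ∑ k : Fin 3, eLpNorm (g k) 2 (volume : Measure R3) := by
  obtain ⟨C, hC⟩ := eLpNorm_six_le_of_smooth
  refine ⟨C, fun f g h => ?_⟩
  obtain ⟨fn, h1, h2, h3, h4⟩ := exists_test_approx (μ := (volume : Measure R3)) (b := dir)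
    h.mem h.gmem h.wd
  have hm : ∀ n, AEStronglyMeasurable (fn n) (volume : Measure R3) := fun n =>
    (h1 n).continuous.aestronglyMeasurable
  have him : TendstoInMeasure (volume : Measure R3) fn atTop f :=
    tendstoInMeasure_of_tendsto_eLpNorm (by norm_num) hm h.mem.1 h3
  obtain ⟨ns, hns, hae⟩ := him.exists_seq_tendsto_ae
  have hlim := Lp.eLpNorm_lim_le_liminf_eLpNorm (p := 6) (μ := (volume : Measure R3))
    (f := fun n => fn (ns n)) (fun n => hm _) f hae
  refine hlim.trans ?_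
  have hg : ∀ k, Tendsto (fun n => eLpNorm (fun x => fderiv ℝ (fn n) x (dir k)) 2
      (volume : Measure R3)) atTop (𝓝 (eLpNorm (g k) 2 volume)) := by
    intro k
    have hk := h4 k
    have hmk : ∀ n, AEStronglyMeasurable (fun x => fderiv ℝ (fn n) x (dir k))
        (volume : Measure R3) := fun n => by
      have : Continuous (fderiv ℝ (fn n)) := (h1 n).continuous_fderiv (by simp)
      exact (this.clm_apply continuous_const).aestronglyMeasurable
    rw [tendsto_order]
    constructor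
    · intro b hb
      -- ‖g‖ ≤ ‖g - ∂f‖ + ‖∂f‖
      obtain ⟨b', hb', hb''⟩ := exists_between hb
      have hb1 : b ≠ ⊤ := ne_top_of_lt hb
      have hsub : 0 < b' - b := tsub_pos_of_lt hb'
      filter_upwards [(tendsto_order.1 hk).2 _ hsub] with n hn
      by_contra hcon
      push Not at hcon
      have : eLpNorm (g k) 2 (volume : Measure R3) ≤ (b' - b) + b := by
        have h5 : eLpNorm (g k) 2 (volume : Measure R3) ≤
            eLpNorm (g k - fun x => fderiv ℝ (fn n) x (dir k)) 2 volume +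
              eLpNorm (fun x => fderiv ℝ (fn n) x (dir k)) 2 volume := by
          have := eLpNorm_add_le (μ := (volume : Measure R3))
            ((h.gmem k).1.sub (hmk n)) (hmk n) (p := 2) (by norm_num)
          simpa using this
        refine h5.trans (add_le_add ?_ hcon)
        rw [eLpNorm_sub_comm]
        exact hn.le
      have h6 : (b' - b) + b = b' := tsub_add_cancel_of_le hb'.le
      rw [h6] at this
      exact absurd hb'' (not_lt.2 this)
    · intro b hb
      obtain ⟨ε, hε⟩ : ∃ ε : ℝ≥0∞, 0 < ε ∧ eLpNorm (g k) 2 (volume : Measure R3) + ε < b := by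
        obtain ⟨b', hb1, hb2⟩ := exists_between hb
        refine ⟨b' - eLpNorm (g k) 2 (volume : Measure R3), tsub_pos_of_lt hb1, ?_⟩
        rw [add_tsub_cancel_of_le hb1.le]
        exact hb2
      filter_upwards [(tendsto_order.1 hk).2 _ hε.1] with n hn
      refine lt_of_le_of_lt ?_ hε.2
      have h5 : eLpNorm (fun x => fderiv ℝ (fn n) x (dir k)) 2 (volume : Measure R3) ≤
          eLpNorm (g k) 2 volume + eLpNorm ((fun x => fderiv ℝ (fn n) x (dir k)) - g k) 2 volume := by
        have := eLpNorm_add_le (μ := (volume : Measure R3)) (h.gmem k).1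
            ((hmk n).sub (h.gmem k).1) (p := 2) (by norm_num)
        simpa using this
      exact h5.trans (add_le_add le_rfl hn.le)
  have hgs : Tendsto (fun n => (C : ℝ≥0∞) * ∑ k, eLpNorm (fun x => fderiv ℝ (fn (ns n)) x (dir k)) 2
      (volume : Measure R3)) atTop (𝓝 (C * ∑ k, eLpNorm (g k) 2 volume)) := by
    refine ENNReal.Tendsto.const_mul ?_ (Or.inr (by simp))
    exact tendsto_finsetSum _ fun k _ => (hg k).comp hns.tendsto_atTop
  calc liminf (fun n => eLpNorm (fn (ns n)) 6 volume) atTop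
      ≤ liminf (fun n => (C : ℝ≥0∞) * ∑ k, eLpNorm (fun x => fderiv ℝ (fn (ns n)) x (dir k)) 2
      (volume : Measure R3)) atTop :=
        liminf_le_liminf (Eventually.of_forall fun n => hC _ (h1 _) (h2 _))
    _ = _ := hgs.liminf_eq

theorem H1.memLp_six {f : R3 → ℝ} {g : Fin 3 → R3 → ℝ} (h : H1 f g) :
    MemLp f 6 (volume : Measure R3) := by
  obtain ⟨C, hC⟩ := sobolev_six
  refine ⟨h.mem.1, (hC f g h).trans_lt ?_⟩
  refine ENNReal.mul_lt_top (by simp) ?_
  exact ENNReal.sum_lt_top.2 fun k _ => (h.gmem k).2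

theorem eLpNorm_two_real {g : R3 → ℝ} (h : MemLp g 2 (volume : Measure R3)) :
    eLpNorm g 2 (volume : Measure R3) = ENNReal.ofReal (Real.sqrt (∫ x, g x ^ 2)) := by
  rw [h.eLpNorm_eq_integral_rpow_norm (by norm_num) (by norm_num), Real.sqrt_eq_rpow]
  norm_num

theorem eLpNorm_six_real {g : R3 → ℝ} (h : MemLp g 6 (volume : Measure R3)) :
    eLpNorm g 6 (volume : Measure R3) = ENNReal.ofReal ((∫ x, g x ^ 6) ^ (1 / 6 : ℝ)) := by
  rw [h.eLpNorm_eq_integral_rpow_norm (by norm_num) (by norm_num)]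
  have : ∀ x, ‖g x‖ ^ (6 : ℝ≥0∞).toReal = g x ^ 6 := fun x => by
    have : (6 : ℝ≥0∞).toReal = ((6 : ℕ) : ℝ) := by simp
    rw [this, Real.rpow_natCast, Real.norm_eq_abs]
    exact (Even.pow_abs (by decide) _)
  simp only [this]
  norm_num

/-- Sobolev inequality in real form. -/
theorem sobolev_real : ∃ C : ℝ, 0 < C ∧ ∀ (f : R3 → ℝ) (g : Fin 3 → R3 → ℝ), H1 f g →
    ∫ x, f x ^ 6 ≤ (C * ∫ x, ∑ k, g k x ^ 2) ^ 3 := by
  obtain ⟨C, hC⟩ := sobolev_six
  refine ⟨3 * ((C : ℝ) + 1) ^ 2, by positivity, fun f g h => ?_⟩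
  have h6 := h.memLp_six
  have h1 := hC f g h
  set a : Fin 3 → ℝ := fun k => ∫ x, g k x ^ 2 with ha
  have ha0 : ∀ k, 0 ≤ a k := fun k => integral_nonneg fun x => sq_nonneg _
  have hsum : ∫ x, ∑ k, g k x ^ 2 = ∑ k, a k := by
    rw [integral_finsetSum]
    intro k _
    exact (h.gmem k).integrable_sq
  have e2 : ∀ k, eLpNorm (g k) 2 (volume : Measure R3) = ENNReal.ofReal (Real.sqrt (a k)) :=
    fun k => eLpNorm_two_real (h.gmem k)
  rw [eLpNorm_six_real h6, Finset.sum_congr rfl (fun k _ => e2 k)] at h1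
  rw [← ENNReal.ofReal_sum_of_nonneg (fun k _ => Real.sqrt_nonneg _),
    ← ENNReal.ofReal_coe_nnreal, ← ENNReal.ofReal_mul (by positivity),
    ENNReal.ofReal_le_ofReal_iff (by positivity)] at h1
  set I : ℝ := ∫ x, f x ^ 6 with hI
  have hI0 : 0 ≤ I := integral_nonneg fun x => by positivity
  have h2 : I = (I ^ (1 / 6 : ℝ)) ^ 6 := by
    rw [← Real.rpow_natCast, ← Real.rpow_mul hI0]
    norm_num
  have h3 : (∑ k, Real.sqrt (a k)) ^ 2 ≤ 3 * ∑ k, a k := by
    have := sq_sum_le_card_mul_sum_sq (s := Finset.univ) (f := fun k => Real.sqrt (a k))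
    simpa [Real.sq_sqrt (ha0 _)] using this
  rw [hsum, h2]
  calc (I ^ (1 / 6 : ℝ)) ^ 6 ≤ ((C : ℝ) * ∑ k, Real.sqrt (a k)) ^ 6 := by
        gcongr
    _ = ((C : ℝ) ^ 2 * (∑ k, Real.sqrt (a k)) ^ 2) ^ 3 := by ring
    _ ≤ (((C : ℝ) + 1) ^ 2 * (3 * ∑ k, a k)) ^ 3 := by
        gcongr
        linarith
    _ = (3 * ((C : ℝ) + 1) ^ 2 * ∑ k, a k) ^ 3 := by ring

/-- integrability of `v f h` for `v ∈ L^{3/2} + L^∞` and `f, h ∈ H¹`. -/
theorem memV_integrable_mul {v : R3 → ℝ} (hv : MemV v) {f h : R3 → ℝ} {g k : Fin 3 → R3 → ℝ}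
    (hf : H1 f g) (hh : H1 h k) : Integrable (fun x => v x * f x * h x) (volume : Measure R3) := by
  obtain ⟨a, b, ha, hb, rfl⟩ := hv
  have ha' : MemLp a (3 / 2) (volume : Measure R3) := ha
  have hb' : MemLp b ⊤ (volume : Measure R3) := hb
  have hfh : MemLp (fun x => f x * h x) 3 (volume : Measure R3) := by
    have : ENNReal.HolderTriple 6 6 3 := ⟨by
      rw [← ENNReal.toReal_eq_toReal_iff' (by simp) (by simp), ENNReal.toReal_add (by simp) (by simp)]
      simp
      norm_num⟩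
    exact hh.memLp_six.mul' hf.memLp_six
  have hfh1 : MemLp (fun x => f x * h x) 1 (volume : Measure R3) :=
    hh.mem.mul' hf.mem
  have h1 : MemLp (fun x => a x * (f x * h x)) 1 (volume : Measure R3) := by
    have : ENNReal.HolderTriple (3 / 2) 3 1 := ⟨by
      rw [← ENNReal.toReal_eq_toReal_iff' (by simp) (by simp), ENNReal.toReal_add (by simp) (by simp)]
      simp
      norm_num⟩
    exact hfh.mul' ha'
  have h2 : MemLp (fun x => b x * (f x * h x)) 1 (volume : Measure R3) := hfh1.mul' hb'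
  have h3 := (memLp_one_iff_integrable.1 h1).add (memLp_one_iff_integrable.1 h2)
  refine h3.congr (Eventually.of_forall fun x => ?_)
  simp only [Pi.add_apply]
  ring

theorem memV_integrable_sub_mul {v : R3 → ℝ} (hv : MemV v) (μ : ℝ) {f h : R3 → ℝ}
    {g k : Fin 3 → R3 → ℝ} (hf : H1 f g) (hh : H1 h k) :
    Integrable (fun x => (v x - μ) * f x * h x) (volume : Measure R3) := by
  have h1 := memV_integrable_mul hv hf hh
  have h2 : Integrable (fun x => f x * h x) (volume : Measure R3) := hf.mem.integrable_mul hh.mem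
  refine (h1.sub (h2.const_mul μ)).congr (Eventually.of_forall fun x => ?_)
  simp only [Pi.sub_apply]
  ring

end

end Vale.Agent.P363.R.KS
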