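import Vale.Agent.P363.R.KS.Defs

/-! Kohn-Sham side (block B8): the two top-level STATEMENTS (owner helper827). -/

namespace Vale.Agent.P363.R.KS

open MeasureTheory Filter Topology
open Vale.Agent.P363.Stmt (R3 MemV)
open Vale.Agent.P363.R.Sob
open scoped ContDiff ENNReal

noncomputable section

-- B8-1 `ks_lower` is proved in `R/KS/Lower.lean`.

/-- B8-2 (K4). Contradiction at infinity: `a` solves `(-½Δ+v-μ)a=0` with `v ∈ L^{3/2}+L^∞`,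
`c√n ≤ a ≤ A√n` outside a ball, and near far points `p k` of the plane `x₂=0` the density behaves
like `m k · x₂²` up to an error small with respect to `m k`. -/
theorem ks_contradiction {v : R3 → ℝ} {μ : ℝ} {a s : R3 → ℝ} {ga : Fin 3 → R3 → ℝ}
    (hv : MemV v) (ha : H1 a ga) (hs : MemLp s 2 (volume : Measure R3)) (hs0 : ∀ᵐ x, 0 ≤ s x)
    (eqa : ∀ h k, H1 h k → qf v μ a ga h k = 0)
    (A c ρ : ℝ) (hc : 0 < c) (hA : ∀ᵐ x, |a x| ≤ A * s x)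
    (low : ∀ᵐ x, ρ < ‖x‖ → c * s x ≤ a x)
    (p : ℕ → R3) (hp : ∀ k, p k 2 = 0) (hinf : Tendsto (fun k => ‖p k‖) atTop atTop)
    (m e : ℕ → ℝ) (hm : ∀ k, 0 < m k) (he : Tendsto e atTop (𝓝 0)) (c₁ C₁ : ℝ) (hc₁ : 0 < c₁)
    (lowb : ∀ k, ∀ᵐ y, y ∈ Metric.ball (p k) 2 → c₁ * m k * (y 2) ^ 2 ≤ s y ^ 2)
    (upb : ∀ k, ∀ t ∈ Set.Ioc (0 : ℝ) 2,
      ∫ y in Metric.ball (p k) 2 ∩ {y | |y 2| < t}, s y ^ 2 ≤ m k * (C₁ * t ^ 3 + e k)) :
    False := sorry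

end

end Vale.Agent.P363.R.KS
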